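import Mathlib

/-!
# P078 (abstract MASA): a spectral cut of a self-adjoint operator

For a self-adjoint bounded operator `a` on a Hilbert space there is a projection `E`, commuting
with everything that commutes with `a`, such that `a ≤ 0` on the range of `E` and `a ≥ 0` on the
range of `1 - E`.
-/

namespace Vale.Agent.Lib.P078

open scoped InnerProductSpace

variable {H : Type*} [NormedAddCommGroup H] [InnerProductSpace ℂ H] [CompleteSpace H]

/-- **Spectral cut at `0`.** -/
theorem exists_cut_zero (a : H →L[ℂ] H) (ha : IsSelfAdjoint a) :
    ∃ E : H →L[ℂ] H, IsStarProjection E ∧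
      (∀ T : H →L[ℂ] H, T * a = a * T → T * E = E * T) ∧
      (∀ η : H, E η = η → (⟪a η, η⟫_ℂ).re ≤ 0) ∧
      (∀ η : H, E η = 0 → 0 ≤ (⟪a η, η⟫_ℂ).re) := by
  classical
  set bp : H →L[ℂ] H := a⁺ with hbp
  set bn : H →L[ℂ] H := a⁻ with hbn
  have hsub : bp - bn = a := CFC.posPart_sub_negPart a ha
  have hpn : bp * bn = 0 := CFC.posPart_mul_negPart a
  have hnp : bn * bp = 0 := CFC.negPart_mul_posPart a
  have hp0 : 0 ≤ bp := CFC.posPart_nonneg a
  have hn0 : 0 ≤ bn := CFC.negPart_nonneg a
  have hpP : bp.IsPositive := (ContinuousLinearMap.nonneg_iff_isPositive bp).mp hp0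
  have hnP : bn.IsPositive := (ContinuousLinearMap.nonneg_iff_isPositive bn).mp hn0
  have hpsa : IsSelfAdjoint bp := hpP.isSelfAdjoint
  have hnsa : IsSelfAdjoint bn := hnP.isSelfAdjoint
  -- the kernel of the positive part
  set K : Submodule ℂ H := LinearMap.ker (bp : H →ₗ[ℂ] H) with hK
  have hKclosed : IsClosed (K : Set H) := bp.isClosed_ker
  have : CompleteSpace K := hKclosed.completeSpace_coe
  have hmemK : ∀ η : H, η ∈ K ↔ bp η = 0 := fun η => LinearMap.mem_ker
  refine ⟨K.starProjection, isStarProjection_starProjection, ?_, ?_, ?_⟩
  · -- commutation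
    intro T hT
    have hTa : Commute a T := hT.symm
    have hTp : Commute bp T := by
      rw [hbp, CFC.posPart_def]
      exact hTa.cfcₙ_real _
    have hT' : star T * a = a * star T := by
      have := congrArg star hT
      rw [star_mul, star_mul, ha.star_eq] at this
      exact this.symm
    have hTp' : Commute bp (star T) := by
      rw [hbp, CFC.posPart_def]
      exact (show Commute a (star T) from hT'.symm).cfcₙ_real _
    -- `K` is invariant under `T` and `star T`
    have hinv : ∀ η ∈ K, T η ∈ K := by
      intro η hη
      rw [hmemK] at hη ⊢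
      have : bp (T η) = T (bp η) := by
        have := congrArg (fun S : H →L[ℂ] H => S η) hTp.eq
        simpa using this
      rw [this, hη, map_zero]
    have hinv' : ∀ η ∈ K, star T η ∈ K := by
      intro η hη
      rw [hmemK] at hη ⊢
      have : bp (star T η) = star T (bp η) := by
        have := congrArg (fun S : H →L[ℂ] H => S η) hTp'.eq
        simpa using this
      rw [this, hη, map_zero]
    -- hence `T` commutes with the projection
    apply ContinuousLinearMap.ext
    intro u
    simp only [mul_apply_eq_comp]
    have hu1 : K.starProjection u ∈ K := Submodule.starProjection_apply_mem K u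
    have hu2 : u - K.starProjection u ∈ Kᗮ := Submodule.sub_starProjection_mem_orthogonal u
    have h1 : T (K.starProjection u) ∈ K := hinv _ hu1
    have h2 : T (u - K.starProjection u) ∈ Kᗮ := by
      rw [Submodule.mem_orthogonal]
      intro w hw
      have : ⟪w, T (u - K.starProjection u)⟫_ℂ = ⟪star T w, u - K.starProjection u⟫_ℂ := by
        rw [ContinuousLinearMap.star_eq_adjoint, ContinuousLinearMap.adjoint_inner_left]
      rw [this]
      exact (Submodule.mem_orthogonal K _).mp hu2 _ (hinv' w hw)
    have h3 : T u = T (K.starProjection u) + T (u - K.starProjection u) := by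
      rw [← map_add]; congr 1; abel
    rw [h3, map_add, Submodule.starProjection_eq_self_iff.mpr h1,
      (Submodule.starProjection_apply_eq_zero_iff K).mpr h2, add_zero]
  · -- on the kernel of the positive part, `a = - a⁻ ≤ 0`
    intro η hη
    have hηK : η ∈ K := by
      rw [← hη]; exact Submodule.starProjection_apply_mem K η
    have h0 : bp η = 0 := (hmemK η).mp hηK
    have h1 : a η = - bn η := by
      have := congrArg (fun S : H →L[ℂ] H => S η) hsub
      simp only [_root_.sub_apply] at this
      rw [← this, h0, zero_sub]
    rw [h1, inner_neg_left, Complex.neg_re]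
    have := hnP.re_inner_nonneg_left η
    simp only [RCLike.re_to_complex] at this
    linarith
  · -- on the orthogonal complement, `a⁻ = 0`
    intro η hη
    have hηK : η ∈ Kᗮ := (Submodule.starProjection_apply_eq_zero_iff K).mp hη
    -- the range of `a⁻` lies in `K`
    have hran : ∀ w : H, bn w ∈ K := by
      intro w
      rw [hmemK]
      have := congrArg (fun S : H →L[ℂ] H => S w) hpn
      simpa using this
    have h0 : bn η = 0 := by
      have h1 : ⟪bn η, bn η⟫_ℂ = 0 := by
        have h2 : ⟪bn η, bn η⟫_ℂ = ⟪bn (bn η), η⟫_ℂ := by
          have := hnsa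
          rw [ContinuousLinearMap.isSelfAdjoint_iff_isSymmetric] at this
          exact (this (bn η) η).symm
        rw [h2]
        exact (Submodule.mem_orthogonal K η).mp hηK _ (hran _)
      exact inner_self_eq_zero.mp h1
    have h1 : a η = bp η := by
      have := congrArg (fun S : H →L[ℂ] H => S η) hsub
      simp only [_root_.sub_apply] at this
      rw [← this, h0, sub_zero]
    rw [h1]
    have := hpP.re_inner_nonneg_left η
    simpa only [RCLike.re_to_complex] using this

end Vale.Agent.Lib.P078
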