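import Mathlib
import Vale.Agent.Lib.P078.Defs
import Vale.Agent.Lib.P078.Proj
import Vale.Agent.Lib.P078.Abs.Cut

/-!
# P078 (abstract MASA): basic facts

`IsMasa A`: the set `A` of bounded operators equals its commutant and is closed under adjoints,
i.e. `A` is a maximal abelian self-adjoint subalgebra of `B(H)`.
`NoMinProj A`: every nonzero projection of `A` has a nonzero strictly smaller projection in `A`.
-/

namespace Vale.Agent.Lib.P078

open scoped InnerProductSpace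

set_option linter.unusedSectionVars false

variable {H : Type*} [NormedAddCommGroup H] [InnerProductSpace ℂ H] [CompleteSpace H]

/-- `A` equals its commutant and is closed under adjoints. -/
def IsMasa (A : Set (H →L[ℂ] H)) : Prop :=
  (∀ T : H →L[ℂ] H, T ∈ A ↔ ∀ S ∈ A, S * T = T * S) ∧ ∀ T ∈ A, star T ∈ A

/-- `A` has no minimal projections. -/
def NoMinProj (A : Set (H →L[ℂ] H)) : Prop :=
  ∀ p ∈ A, IsStarProjection p → p ≠ 0 →
    ∃ p' ∈ A, IsStarProjection p' ∧ p' ≠ 0 ∧ p' ≠ p ∧ p * p' = p'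

variable {A : Set (H →L[ℂ] H)}

lemma IsMasa.comm (hA : IsMasa A) {S T : H →L[ℂ] H} (hS : S ∈ A) (hT : T ∈ A) :
    S * T = T * S := (hA.1 T).mp hT S hS

lemma IsMasa.mem_of_comm (hA : IsMasa A) {T : H →L[ℂ] H} (h : ∀ S ∈ A, S * T = T * S) :
    T ∈ A := (hA.1 T).mpr h

lemma IsMasa.star_mem (hA : IsMasa A) {T : H →L[ℂ] H} (hT : T ∈ A) : star T ∈ A := hA.2 T hT

lemma IsMasa.zero_mem (hA : IsMasa A) : (0 : H →L[ℂ] H) ∈ A :=
  hA.mem_of_comm (fun S _ => by simp)

lemma IsMasa.one_mem (hA : IsMasa A) : (1 : H →L[ℂ] H) ∈ A :=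
  hA.mem_of_comm (fun S _ => by simp)

lemma IsMasa.add_mem (hA : IsMasa A) {S T : H →L[ℂ] H} (hS : S ∈ A) (hT : T ∈ A) :
    S + T ∈ A :=
  hA.mem_of_comm (fun R hR => by rw [mul_add, add_mul, hA.comm hR hS, hA.comm hR hT])

lemma IsMasa.neg_mem (hA : IsMasa A) {T : H →L[ℂ] H} (hT : T ∈ A) : -T ∈ A :=
  hA.mem_of_comm (fun R hR => by rw [mul_neg, neg_mul, hA.comm hR hT])

lemma IsMasa.sub_mem (hA : IsMasa A) {S T : H →L[ℂ] H} (hS : S ∈ A) (hT : T ∈ A) :
    S - T ∈ A := by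
  rw [sub_eq_add_neg]
  exact hA.add_mem hS (hA.neg_mem hT)

lemma IsMasa.smul_mem (hA : IsMasa A) (c : ℂ) {T : H →L[ℂ] H} (hT : T ∈ A) : c • T ∈ A :=
  hA.mem_of_comm (fun R hR => by rw [mul_smul_comm, smul_mul_assoc, hA.comm hR hT])

lemma IsMasa.mul_mem (hA : IsMasa A) {S T : H →L[ℂ] H} (hS : S ∈ A) (hT : T ∈ A) :
    S * T ∈ A :=
  hA.mem_of_comm (fun R hR => by
    rw [← mul_assoc, hA.comm hR hS, mul_assoc, hA.comm hR hT, ← mul_assoc])

lemma IsMasa.sum_mem (hA : IsMasa A) {ι : Type*} (s : Finset ι) (f : ι → H →L[ℂ] H)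
    (hf : ∀ i ∈ s, f i ∈ A) : ∑ i ∈ s, f i ∈ A :=
  Finset.sum_induction _ (fun T => T ∈ A) (fun _ _ h1 h2 => hA.add_mem h1 h2) hA.zero_mem hf

lemma IsMasa.comm_apply (hA : IsMasa A) {S T : H →L[ℂ] H} (hS : S ∈ A) (hT : T ∈ A) (u : H) :
    S (T u) = T (S u) := by
  have := congrArg (fun R : H →L[ℂ] H => R u) (hA.comm hS hT)
  simpa using this

/-- A closed subspace invariant under `A` has its orthogonal projection in `A`. -/
theorem IsMasa.proj_mem_of_invariant (hA : IsMasa A) (K : Submodule ℂ H)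
    [K.HasOrthogonalProjection] (hK : ∀ T ∈ A, ∀ η ∈ K, T η ∈ K) :
    K.starProjection ∈ A := by
  apply hA.mem_of_comm
  intro T hT
  apply ContinuousLinearMap.ext
  intro u
  simp only [mul_apply_eq_comp]
  have hu1 : K.starProjection u ∈ K := Submodule.starProjection_apply_mem K u
  have hu2 : u - K.starProjection u ∈ Kᗮ := Submodule.sub_starProjection_mem_orthogonal u
  have h1 : T (K.starProjection u) ∈ K := hK T hT _ hu1
  have h2 : T (u - K.starProjection u) ∈ Kᗮ := by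
    rw [Submodule.mem_orthogonal]
    intro w hw
    have : ⟪w, T (u - K.starProjection u)⟫_ℂ = ⟪star T w, u - K.starProjection u⟫_ℂ := by
      rw [ContinuousLinearMap.star_eq_adjoint, ContinuousLinearMap.adjoint_inner_left]
    rw [this]
    exact (Submodule.mem_orthogonal K _).mp hu2 _ (hK _ (hA.star_mem hT) w hw)
  have h3 : T u = T (K.starProjection u) + T (u - K.starProjection u) := by
    rw [← map_add]; congr 1; abel
  rw [h3, map_add, Submodule.starProjection_eq_self_iff.mpr h1,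
    (Submodule.starProjection_apply_eq_zero_iff K).mpr h2, add_zero]

/-- **Spectral cut at a real level `t`**, inside the algebra. -/
theorem IsMasa.exists_cut (hA : IsMasa A) {a : H →L[ℂ] H} (haA : a ∈ A) (ha : IsSelfAdjoint a)
    (t : ℝ) :
    ∃ E ∈ A, IsStarProjection E ∧
      (∀ η : H, E η = η → (⟪a η, η⟫_ℂ).re ≤ t * ‖η‖ ^ 2) ∧
      (∀ η : H, E η = 0 → t * ‖η‖ ^ 2 ≤ (⟪a η, η⟫_ℂ).re) := by
  have hb : IsSelfAdjoint (a - (t : ℂ) • (1 : H →L[ℂ] H)) :=
    ha.sub (IsSelfAdjoint.smul (isSelfAdjoint_iff.mpr (Complex.conj_ofReal _)) (IsSelfAdjoint.one _))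
  obtain ⟨E, hE, hEc, h1, h2⟩ := exists_cut_zero (a - (t : ℂ) • (1 : H →L[ℂ] H)) hb
  have hkey : ∀ η : H, (⟪(a - (t : ℂ) • (1 : H →L[ℂ] H)) η, η⟫_ℂ).re
      = (⟪a η, η⟫_ℂ).re - t * ‖η‖ ^ 2 := by
    intro η
    rw [_root_.sub_apply, _root_.smul_apply, one_apply_eq_self, inner_sub_left, inner_smul_left,
      Complex.sub_re, Complex.conj_ofReal, inner_self_eq_norm_sq_to_K]
    congr 1
    have : ((t : ℂ) * ((‖η‖ : ℂ)) ^ 2) = ((t * ‖η‖ ^ 2 : ℝ) : ℂ) := by push_cast; ring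
    simp only [Complex.coe_algebraMap]
    rw [this, Complex.ofReal_re]
  refine ⟨E, ?_, hE, ?_, ?_⟩
  · apply hA.mem_of_comm
    intro S hS
    apply hEc
    have hS1 : S * a = a * S := hA.comm hS haA
    rw [mul_sub, sub_mul, hS1, mul_smul_comm, smul_mul_assoc, mul_one, one_mul]
  · intro η hη
    have := h1 η hη
    rw [hkey] at this
    linarith
  · intro η hη
    have := h2 η hη
    rw [hkey] at this
    linarith

end Vale.Agent.Lib.P078
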