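import Mathlib
import Vale.Agent.Lib.P078.Abs.Basic
import Vale.Agent.Lib.P078.Mult
import Vale.Agent.Lib.P078.UpperConcrete
import Vale.Agent.Lib.P078.LowerGen
import Vale.Agent.Lib.P078.MasaBasic
import Vale.Agent.Lib.P078.Commutant

/-!
# P078 (abstract MASA): the concrete example

For a finite measure `μ`, the algebra of multiplication operators by essentially bounded
functions on `L²(μ)` is a maximal abelian self-adjoint subalgebra (`multAlg_isMasa`), and when
`μ` has no atoms it has no minimal projections (`multAlg_noMinProj`).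
-/

namespace Vale.Agent.Lib.P078

open scoped InnerProductSpace
open MeasureTheory

set_option linter.unusedSectionVars false

variable {H : Type*} [NormedAddCommGroup H] [InnerProductSpace ℂ H] [CompleteSpace H]
variable {A : Set (H →L[ℂ] H)}

/-- The multiplication algebra of a finite measure is a maximal abelian self-adjoint
subalgebra of the bounded operators on `L²(μ)`. -/
theorem multAlg_isMasa {X : Type*} [MeasurableSpace X] (μ : Measure X) [IsFiniteMeasure μ] :
    IsMasa (multAlg μ) :=
  ⟨fun T => ⟨fun hT S hS => multAlg_comm S T hS hT, fun h => multAlg_commutant T h⟩,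
    fun T hT => multAlg_star T hT⟩

/-- The indicator operator of a measurable set is zero only if the set is null. -/
lemma measure_eq_zero_of_indOp_eq_zero {X : Type*} [MeasurableSpace X] (μ : Measure X)
    [IsFiniteMeasure μ] {E : Set X} (hE : MeasurableSet E) (h : indOp μ E = 0) : μ E = 0 := by
  have h1 : indVec μ E = 0 := by
    unfold indVec
    rw [h]
    rfl
  have h2 := norm_indVec (μ := μ) hE
  rw [h1, norm_zero] at h2
  have h3 : μ.real E = 0 := (Real.sqrt_eq_zero measureReal_nonneg).mp h2.symm
  exact (measureReal_eq_zero_iff).mp h3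

/-- Equal indicator operators come from sets of equal measure. -/
lemma measure_eq_of_indOp_eq {X : Type*} [MeasurableSpace X] (μ : Measure X)
    [IsFiniteMeasure μ] {E F : Set X} (hE : MeasurableSet E) (hF : MeasurableSet F)
    (h : indOp μ E = indOp μ F) : μ E = μ F := by
  have h1 : indVec μ E = indVec μ F := by
    unfold indVec
    rw [h]
  have h2 : Real.sqrt (μ.real E) = Real.sqrt (μ.real F) := by
    rw [← norm_indVec (μ := μ) hE, ← norm_indVec (μ := μ) hF, h1]
  have h3 : μ.real E = μ.real F :=
    (Real.sqrt_inj measureReal_nonneg measureReal_nonneg).mp h2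
  exact (measureReal_eq_measureReal_iff (measure_ne_top μ E) (measure_ne_top μ F)).mp h3

/-- The multiplication algebra of a finite measure without atoms has no minimal projections. -/
theorem multAlg_noMinProj {X : Type*} [MeasurableSpace X] (μ : Measure X) [IsFiniteMeasure μ]
    (hat : ∀ s : Set X, MeasurableSet s → 0 < μ s →
      ∃ t, MeasurableSet t ∧ t ⊆ s ∧ 0 < μ t ∧ μ t < μ s) :
    NoMinProj (multAlg μ) := by
  intro p hp hproj hp0
  obtain ⟨φ, hφ, hact0⟩ := hp
  have hact : ActsBy p φ := hact0
  have hidem : p * p = p := hproj.isIdempotentElem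
  have hsq : ∀ᵐ x ∂μ, φ x * φ x = φ x := by
    have h1 := (hact.mul hact) (oneVec μ)
    rw [hidem] at h1
    filter_upwards [h1, hact (oneVec μ), oneVec_ae (μ := μ)] with x h1 h2 h3
    rw [h2, h3] at h1
    simpa using h1.symm
  have hφm : AEStronglyMeasurable φ μ := hφ.aestronglyMeasurable
  have hsm := hφm.stronglyMeasurable_mk
  have hae := hφm.ae_eq_mk
  obtain ⟨E, hEdef⟩ : ∃ E : Set X, E = {t | hφm.mk φ t = 1} := ⟨_, rfl⟩
  have hmemE : ∀ x, x ∈ E ↔ hφm.mk φ x = 1 := by
    intro x
    rw [hEdef]
    rfl
  have hE : MeasurableSet E := by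
    rw [hEdef]
    exact hsm.measurable (measurableSet_singleton (1 : ℂ))
  have hind : φ =ᵐ[μ] Set.indicator E (fun _ => (1 : ℂ)) := by
    filter_upwards [hsq, hae] with x h1 h2
    by_cases hx : x ∈ E
    · rw [Set.indicator_of_mem hx, h2, (hmemE x).mp hx]
    · rw [Set.indicator_of_notMem hx]
      have h3 : φ x * (φ x - 1) = 0 := by rw [mul_sub, h1, mul_one, sub_self]
      rcases mul_eq_zero.mp h3 with h4 | h4
      · exact h4
      · exact absurd ((hmemE x).mpr (by rw [← h2]; exact sub_eq_zero.mp h4)) hx
  have hpE : p = indOp μ E := hact.ext (indOp_acts hE) hind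
  have hEpos : 0 < μ E := by
    rw [pos_iff_ne_zero]
    intro h0
    apply hp0
    rw [hpE]
    refine (indOp_acts hE).ext actsBy_zero ?_
    filter_upwards [measure_eq_zero_iff_ae_notMem.mp h0] with x hx
    rw [Set.indicator_of_notMem hx]
  obtain ⟨E', hE'm, hE'sub, hE'pos, hE'lt⟩ := hat E hE hEpos
  refine ⟨indOp μ E', indOp_mem hE'm, indOp_isStarProjection hE'm, ?_, ?_, ?_⟩
  · intro h0
    exact hE'pos.ne' (measure_eq_zero_of_indOp_eq_zero μ hE'm h0)
  · intro heq
    rw [hpE] at heq
    exact hE'lt.ne (measure_eq_of_indOp_eq μ hE'm hE heq)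
  · rw [hpE, indOp_mul hE hE'm, Set.inter_eq_self_of_subset_right hE'sub]

/-- `L²(μ)` is a nontrivial space when `μ` is a nonzero finite measure. -/
theorem nontrivial_Lp_of_ne_zero {X : Type*} [MeasurableSpace X] (μ : Measure X)
    [IsFiniteMeasure μ] (hμ0 : μ ≠ 0) : Nontrivial (Lp ℂ 2 μ) := by
  have h2 : indVec μ (Set.univ : Set X) ≠ 0 := by
    intro h0
    have h3 := norm_indVec (μ := μ) MeasurableSet.univ
    rw [h0, norm_zero] at h3
    have h4 : μ.real Set.univ = 0 := (Real.sqrt_eq_zero measureReal_nonneg).mp h3.symm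
    exact hμ0 (Measure.measure_univ_eq_zero.mp ((measureReal_eq_zero_iff).mp h4))
  exact nontrivial_of_ne _ _ h2

end Vale.Agent.Lib.P078
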