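import Mathlib
import Vale.Agent.Lib.P078.Abs.Basic

/-!
# P078 (abstract MASA): a joint cyclic vector for finitely many vectors

Finitely many vectors lie in the closure of one orbit `A ζ`.
-/

namespace Vale.Agent.Lib.P078

open scoped InnerProductSpace

set_option linter.unusedSectionVars false

variable {H : Type*} [NormedAddCommGroup H] [InnerProductSpace ℂ H] [CompleteSpace H]
variable {A : Set (H →L[ℂ] H)}

/-- The orbit `A ζ0` as a subspace. -/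
def orbitSub (hA : IsMasa A) (ζ0 : H) : Submodule ℂ H where
  carrier := {v | ∃ T ∈ A, T ζ0 = v}
  add_mem' := by
    rintro _ _ ⟨S, hS, rfl⟩ ⟨T, hT, rfl⟩
    exact ⟨S + T, hA.add_mem hS hT, by simp⟩
  zero_mem' := ⟨0, hA.zero_mem, by simp⟩
  smul_mem' := by
    rintro c _ ⟨S, hS, rfl⟩
    exact ⟨c • S, hA.smul_mem c hS, by simp⟩

lemma mem_orbitSub (hA : IsMasa A) (ζ0 v : H) : v ∈ orbitSub hA ζ0 ↔ ∃ T ∈ A, T ζ0 = v :=
  Iff.rfl

/-- One step: enlarge a joint cyclic vector by one more vector. -/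
lemma IsMasa.cyclic_step (hA : IsMasa A) (ζ0 ξ : H) (hζ0 : ζ0 ≠ 0) :
    ∃ ζ : H, ζ ≠ 0 ∧ (∀ δ : ℝ, 0 < δ → ∃ T ∈ A, ‖ξ - T ζ‖ < δ) ∧
      ∀ ξ' : H, (∀ δ : ℝ, 0 < δ → ∃ T ∈ A, ‖ξ' - T ζ0‖ < δ) →
        ∀ δ : ℝ, 0 < δ → ∃ T ∈ A, ‖ξ' - T ζ‖ < δ := by
  set V : Submodule ℂ H := orbitSub hA ζ0 with hV
  set K : Submodule ℂ H := V.topologicalClosure with hK
  have hKclosed : IsClosed (K : Set H) := Submodule.isClosed_topologicalClosure V
  have : CompleteSpace K := hKclosed.completeSpace_coe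
  have hVK : V ≤ K := Submodule.le_topologicalClosure V
  have hinv : ∀ T ∈ A, ∀ η ∈ K, T η ∈ K := by
    intro T hT η hη
    have hη' : η ∈ closure (V : Set H) := hη
    have hmaps : Set.MapsTo (fun v => T v) (V : Set H) (V : Set H) := by
      rintro _ ⟨S, hS, rfl⟩
      exact ⟨T * S, hA.mul_mem hT hS, by simp⟩
    exact map_mem_closure T.continuous hη' hmaps
  have hP : K.starProjection ∈ A := hA.proj_mem_of_invariant K hinv
  set P : H →L[ℂ] H := K.starProjection with hPdef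
  have hζ0K : ζ0 ∈ K := hVK ⟨1, hA.one_mem, by simp⟩
  have hPζ0 : P ζ0 = ζ0 := Submodule.starProjection_eq_self_iff.mpr hζ0K
  have hPP : ∀ u : H, P (P u) = P u := fun u =>
    Submodule.starProjection_eq_self_iff.mpr (Submodule.starProjection_apply_mem K u)
  have hPζ : P (ζ0 + (ξ - P ξ)) = ζ0 := by
    rw [map_add, map_sub, hPP, sub_self, add_zero, hPζ0]
  refine ⟨ζ0 + (ξ - P ξ), ?_, ?_, ?_⟩
  · intro h0
    rw [h0, map_zero] at hPζ
    exact hζ0 hPζ.symm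
  · intro δ hδ
    have hPξ : P ξ ∈ closure (V : Set H) := Submodule.starProjection_apply_mem K ξ
    obtain ⟨v, hv, hdist⟩ := Metric.mem_closure_iff.mp hPξ δ hδ
    obtain ⟨S, hS, rfl⟩ := hv
    refine ⟨S * P + (1 - P), hA.add_mem (hA.mul_mem hS hP) (hA.sub_mem hA.one_mem hP), ?_⟩
    have hcalc : (S * P + (1 - P)) (ζ0 + (ξ - P ξ)) = S ζ0 + (ξ - P ξ) := by
      rw [_root_.add_apply, mul_apply_eq_comp, _root_.sub_apply, one_apply_eq_self]
      rw [hPζ]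
      abel
    rw [hcalc]
    have : ξ - (S ζ0 + (ξ - P ξ)) = P ξ - S ζ0 := by abel
    rw [this, ← dist_eq_norm]
    exact hdist
  · intro ξ' hξ' δ hδ
    obtain ⟨T, hT, hlt⟩ := hξ' δ hδ
    refine ⟨T * P, hA.mul_mem hT hP, ?_⟩
    have hcalc : (T * P) (ζ0 + (ξ - P ξ)) = T ζ0 := by
      rw [mul_apply_eq_comp]
      rw [hPζ]
    rw [hcalc]
    exact hlt

theorem IsMasa.exists_cyclic [Nontrivial H] (hA : IsMasa A) (F : Finset H) :
    ∃ ζ : H, ζ ≠ 0 ∧ ∀ ξ ∈ F, ∀ δ : ℝ, 0 < δ → ∃ T ∈ A, ‖ξ - T ζ‖ < δ := by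
  classical
  induction F using Finset.induction_on with
  | empty =>
    obtain ⟨ζ, hζ⟩ := exists_ne (0 : H)
    exact ⟨ζ, hζ, fun ξ hξ => absurd hξ (Finset.notMem_empty ξ)⟩
  | insert ξ F _ ih =>
    obtain ⟨ζ0, hζ0, hF⟩ := ih
    obtain ⟨ζ, hζ, h1, h2⟩ := hA.cyclic_step ζ0 ξ hζ0
    refine ⟨ζ, hζ, ?_⟩
    intro ξ' hξ'
    rcases Finset.mem_insert.mp hξ' with rfl | hmem
    · exact h1
    · exact h2 ξ' (hF ξ' hmem)

end Vale.Agent.Lib.P078
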