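import Mathlib
import Vale.Agent.Lib.P078.Abs.Basic

/-!
# P078 (abstract MASA): minimal projections have rank at most one

A minimal projection of a maximal abelian self-adjoint subalgebra of `B(H)` has rank at most
one; hence such an algebra on an infinite-dimensional space contains arbitrarily many mutually
orthogonal nonzero projections. The step property (uniform approximation by step operators)
is an explicit hypothesis.
-/

namespace Vale.Agent.Lib.P078

open scoped InnerProductSpace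

set_option linter.unusedSectionVars false

variable {H : Type*} [NormedAddCommGroup H] [InnerProductSpace ℂ H] [CompleteSpace H]
variable {A : Set (H →L[ℂ] H)}

namespace InfAux

/-- On the range of a nonzero minimal projection every operator of the algebra is within
`δ` of a scalar. -/
lemma approx_scalar_on_range (hA : IsMasa A)
    (hstep : ∀ T ∈ A, ∀ δ : ℝ, 0 < δ → ∃ (ι : Type) (_ : Fintype ι) (D : ι → H →L[ℂ] H)
      (c : ι → ℂ),
      OrthoFam D ∧ (∀ i, D i ∈ A) ∧ ∀ η : H, ‖T η - ∑ i, c i • D i η‖ ≤ δ * ‖η‖)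
    {R : H →L[ℂ] H} (hRA : R ∈ A) (hR : IsStarProjection R)
    (hRmin : ∀ p ∈ A, IsStarProjection p → R * p = p → p = 0 ∨ p = R) (hR0 : R ≠ 0)
    {T : H →L[ℂ] H} (hT : T ∈ A) (δ : ℝ) (hδ : 0 < δ) :
    ∃ μ : ℂ, ∀ v : H, R v = v → ‖T v - μ • v‖ ≤ δ * ‖v‖ := by
  classical
  obtain ⟨ι, _, D, c, hD, hDA, happ⟩ := hstep T hT δ hδ
  have hi : ∀ i, D i * R = 0 ∨ D i * R = R := fun i =>
    hRmin (D i * R) (hA.mul_mem (hDA i) hRA) ((hD.1 i).mul hR (hA.comm (hDA i) hRA))
      (by rw [← mul_assoc, hA.comm hRA (hDA i), mul_assoc, hR.isIdempotentElem.eq])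
  have hex : ∃ i0, D i0 * R = R := by
    by_contra hne
    push Not at hne
    have hall : ∀ i, D i * R = 0 := fun i => (hi i).resolve_right (hne i)
    have hsum : R = ∑ i, D i * R := by rw [← Finset.sum_mul, hD.2.2, one_mul]
    apply hR0
    rw [hsum]
    exact Finset.sum_eq_zero (fun i _ => hall i)
  obtain ⟨i0, hi0⟩ := hex
  refine ⟨c i0, fun v hv => ?_⟩
  have h0 : D i0 v = v := by
    have := congrArg (fun S : H →L[ℂ] H => S v) hi0
    simp only [mul_apply_eq_comp] at this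
    rw [hv] at this
    exact this
  have hj : ∀ j, j ≠ i0 → D j v = 0 := by
    intro j hj
    have h1 : D j * R = 0 := by
      rw [← hi0, ← mul_assoc, hD.2.1 j i0 hj, zero_mul]
    have := congrArg (fun S : H →L[ℂ] H => S v) h1
    simp only [mul_apply_eq_comp] at this
    rw [hv] at this
    simpa using this
  have hs : ∑ i, c i • D i v = c i0 • v := by
    rw [Finset.sum_eq_single i0]
    · rw [h0]
    · intro j _ hj'
      rw [hj j hj', smul_zero]
    · intro h
      exact absurd (Finset.mem_univ i0) h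
  have := happ v
  rw [hs] at this
  exact this

/-- On the range of a minimal projection every operator of the algebra is a scalar. -/
lemma scalar_on_range (hA : IsMasa A)
    (hstep : ∀ T ∈ A, ∀ δ : ℝ, 0 < δ → ∃ (ι : Type) (_ : Fintype ι) (D : ι → H →L[ℂ] H)
      (c : ι → ℂ),
      OrthoFam D ∧ (∀ i, D i ∈ A) ∧ ∀ η : H, ‖T η - ∑ i, c i • D i η‖ ≤ δ * ‖η‖)
    {R : H →L[ℂ] H} (hRA : R ∈ A) (hR : IsStarProjection R)
    (hRmin : ∀ p ∈ A, IsStarProjection p → R * p = p → p = 0 ∨ p = R)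
    {T : H →L[ℂ] H} (hT : T ∈ A) :
    ∃ lam : ℂ, ∀ v : H, R v = v → T v = lam • v := by
  by_cases h0 : ∀ v : H, R v = v → v = 0
  · refine ⟨0, fun v hv => ?_⟩
    rw [h0 v hv]
    simp
  · push Not at h0
    obtain ⟨v0, hv0, hv0ne⟩ := h0
    have hR0 : R ≠ 0 := by
      intro h
      rw [h] at hv0
      exact hv0ne (by simpa using hv0.symm)
    have hn0 : ‖v0‖ ≠ 0 := norm_ne_zero_iff.mpr hv0ne
    set v1 : H := ((‖v0‖ : ℂ)⁻¹) • v0 with hv1
    have hv1R : R v1 = v1 := by rw [hv1, map_smul, hv0]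
    have hv1n : ‖v1‖ = 1 := by
      rw [hv1, norm_smul, norm_inv, Complex.norm_real, Real.norm_eq_abs, abs_norm]
      exact inv_mul_cancel₀ hn0
    have hv1i : ⟪v1, v1⟫_ℂ = 1 := by
      rw [inner_self_eq_norm_sq_to_K, hv1n]
      simp
    refine ⟨⟪v1, T v1⟫_ℂ, fun v hv => ?_⟩
    have hbound : ∀ δ : ℝ, 0 < δ → ‖T v - ⟪v1, T v1⟫_ℂ • v‖ ≤ δ * (2 * ‖v‖) := by
      intro δ hδ
      obtain ⟨μ, hμ⟩ := approx_scalar_on_range hA hstep hRA hR hRmin hR0 hT δ hδ
      have h1 : ⟪v1, T v1⟫_ℂ - μ = ⟪v1, T v1 - μ • v1⟫_ℂ := by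
        rw [inner_sub_right, inner_smul_right, hv1i, mul_one]
      have h2 : ‖⟪v1, T v1⟫_ℂ - μ‖ ≤ δ := by
        rw [h1]
        calc ‖⟪v1, T v1 - μ • v1⟫_ℂ‖ ≤ ‖v1‖ * ‖T v1 - μ • v1‖ := norm_inner_le_norm _ _
          _ ≤ 1 * (δ * 1) := by
              rw [hv1n]
              have := hμ v1 hv1R
              rw [hv1n] at this
              linarith
          _ = δ := by ring
      have h3 : T v - ⟪v1, T v1⟫_ℂ • v = (T v - μ • v) - (⟪v1, T v1⟫_ℂ - μ) • v := by
        rw [sub_smul]; abel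
      rw [h3]
      calc ‖(T v - μ • v) - (⟪v1, T v1⟫_ℂ - μ) • v‖
          ≤ ‖T v - μ • v‖ + ‖(⟪v1, T v1⟫_ℂ - μ) • v‖ := norm_sub_le _ _
        _ ≤ δ * ‖v‖ + δ * ‖v‖ := by
            refine add_le_add (hμ v hv) ?_
            rw [norm_smul]
            exact mul_le_mul_of_nonneg_right h2 (norm_nonneg _)
        _ = δ * (2 * ‖v‖) := by ring
    by_contra hne
    have hpos : 0 < ‖T v - ⟪v1, T v1⟫_ℂ • v‖ := by
      rw [norm_pos_iff]
      exact sub_ne_zero.mpr hne
    set x := ‖T v - ⟪v1, T v1⟫_ℂ • v‖ with hx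
    have hden : 0 < 2 * (2 * ‖v‖ + 1) := by positivity
    have hb := hbound (x / (2 * (2 * ‖v‖ + 1))) (div_pos hpos hden)
    have hlt : x / (2 * (2 * ‖v‖ + 1)) * (2 * ‖v‖) < x := by
      rw [div_mul_eq_mul_div, div_lt_iff₀ hden]
      nlinarith [norm_nonneg v]
    linarith

end InfAux

/-- **A minimal projection of a MASA has rank at most one.** -/
theorem IsMasa.minimal_proj_rank_one (hA : IsMasa A)
    (hstep : ∀ T ∈ A, ∀ δ : ℝ, 0 < δ → ∃ (ι : Type) (_ : Fintype ι) (D : ι → H →L[ℂ] H) (c : ι → ℂ),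
      OrthoFam D ∧ (∀ i, D i ∈ A) ∧ ∀ η : H, ‖T η - ∑ i, c i • D i η‖ ≤ δ * ‖η‖)
    {R : H →L[ℂ] H} (hRA : R ∈ A) (hR : IsStarProjection R)
    (hRmin : ∀ p ∈ A, IsStarProjection p → R * p = p → p = 0 ∨ p = R)
    (u w : H) (hu : R u = u) (hw : R w = w) (huw : ⟪u, w⟫_ℂ = 0) : u = 0 ∨ w = 0 := by
  by_contra hcon
  push Not at hcon
  obtain ⟨hu0, hw0⟩ := hcon
  set K : H →L[ℂ] H := (innerSL ℂ w).smulRight u with hK
  have hKapp : ∀ v : H, K v = ⟪w, v⟫_ℂ • u := fun v => by
    rw [hK, ContinuousLinearMap.smulRight_apply, innerSL_apply_apply]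
  have hKA : K ∈ A := by
    apply hA.mem_of_comm
    intro S hS
    obtain ⟨lam, hlam⟩ := InfAux.scalar_on_range hA hstep hRA hR hRmin hS
    obtain ⟨mu, hmu⟩ := InfAux.scalar_on_range hA hstep hRA hR hRmin (hA.star_mem hS)
    have hconj : (starRingEnd ℂ) mu = lam := by
      have h1 : ⟪star S w, w⟫_ℂ = ⟪w, S w⟫_ℂ := by
        rw [ContinuousLinearMap.star_eq_adjoint, ContinuousLinearMap.adjoint_inner_left]
      rw [hmu w hw, hlam w hw, inner_smul_left, inner_smul_right] at h1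
      have hww : ⟪w, w⟫_ℂ ≠ 0 := inner_self_ne_zero.mpr hw0
      exact mul_right_cancel₀ hww h1
    apply ContinuousLinearMap.ext
    intro v
    simp only [mul_apply_eq_comp]
    rw [hKapp, hKapp, map_smul, hlam u hu]
    have h2 : ⟪w, S v⟫_ℂ = ⟪star S w, v⟫_ℂ := by
      rw [ContinuousLinearMap.star_eq_adjoint, ContinuousLinearMap.adjoint_inner_left]
    rw [h2, hmu w hw, inner_smul_left, hconj, smul_smul, mul_comm]
  have hKs : star K ∈ A := hA.star_mem hKA
  have hcomm := hA.comm_apply hKA hKs u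
  have hwu : ⟪w, u⟫_ℂ = 0 := by
    rw [← inner_conj_symm, huw, map_zero]
  have hKu : K u = 0 := by
    rw [hKapp, hwu, zero_smul]
  rw [hKu, map_zero, hKapp] at hcomm
  have h3 : ⟪w, star K u⟫_ℂ = 0 := by
    rcases smul_eq_zero.mp hcomm with h | h
    · exact h
    · exact absurd h hu0
  rw [ContinuousLinearMap.star_eq_adjoint, ContinuousLinearMap.adjoint_inner_right, hKapp,
    inner_smul_left] at h3
  rcases mul_eq_zero.mp h3 with h | h
  · rw [map_eq_zero] at h
    exact hw0 (inner_self_eq_zero.mp h)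
  · exact hu0 (inner_self_eq_zero.mp h)

namespace InfAux

/-- The range of a bounded operator, as a subspace. -/
def rg (R : H →L[ℂ] H) : Submodule ℂ H := LinearMap.range (R : H →ₗ[ℂ] H)

lemma mem_rg (R : H →L[ℂ] H) (x : H) : x ∈ rg R ↔ ∃ y, R y = x := by
  unfold rg
  rw [LinearMap.mem_range]
  simp only [ContinuousLinearMap.coe_coe]

/-- A vector is in the range of a star projection iff it is fixed. -/
lemma mem_range_proj_iff {R : H →L[ℂ] H} (hR : IsStarProjection R) (x : H) :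
    x ∈ rg R ↔ R x = x := by
  rw [mem_rg]
  constructor
  · rintro ⟨y, rfl⟩
    have := congrArg (fun S : H →L[ℂ] H => S y) hR.isIdempotentElem.eq
    simpa [mul_apply_eq_comp] using this
  · intro h
    exact ⟨x, h⟩

/-- The range of a minimal projection is finite-dimensional. -/
lemma finiteDimensional_range_of_minimal (hA : IsMasa A)
    (hstep : ∀ T ∈ A, ∀ δ : ℝ, 0 < δ → ∃ (ι : Type) (_ : Fintype ι) (D : ι → H →L[ℂ] H)
      (c : ι → ℂ),
      OrthoFam D ∧ (∀ i, D i ∈ A) ∧ ∀ η : H, ‖T η - ∑ i, c i • D i η‖ ≤ δ * ‖η‖)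
    {R : H →L[ℂ] H} (hRA : R ∈ A) (hR : IsStarProjection R)
    (hRmin : ∀ p ∈ A, IsStarProjection p → R * p = p → p = 0 ∨ p = R) :
    FiniteDimensional ℂ (rg R) := by
  by_cases h0 : ∀ v : H, R v = v → v = 0
  · have hle : rg R ≤ (⊥ : Submodule ℂ H) := by
      intro x hx
      rw [Submodule.mem_bot]
      exact h0 x ((mem_range_proj_iff hR x).mp hx)
    exact Submodule.finiteDimensional_of_le hle
  · push Not at h0
    obtain ⟨u, hu, hune⟩ := h0
    have huu : ⟪u, u⟫_ℂ ≠ 0 := inner_self_ne_zero.mpr hune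
    have hle : rg R ≤ Submodule.span ℂ {u} := by
      intro x hx
      have hxR : R x = x := (mem_range_proj_iff hR x).mp hx
      set cc : ℂ := ⟪u, x⟫_ℂ / ⟪u, u⟫_ℂ with hcc
      have hwR : R (x - cc • u) = x - cc • u := by
        rw [map_sub, map_smul, hxR, hu]
      have hin : ⟪u, x - cc • u⟫_ℂ = 0 := by
        rw [inner_sub_right, inner_smul_right, hcc, div_mul_cancel₀ _ huu, sub_self]
      rcases hA.minimal_proj_rank_one hstep hRA hR hRmin u (x - cc • u) hu hwR hin with h | h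
      · exact absurd h hune
      · rw [Submodule.mem_span_singleton]
        exact ⟨cc, (sub_eq_zero.mp h).symm⟩
    have : FiniteDimensional ℂ (Submodule.span ℂ ({u} : Set H)) :=
      FiniteDimensional.span_of_finite ℂ (Set.finite_singleton u)
    exact Submodule.finiteDimensional_of_le hle

/-- Splitting off a nonzero piece from a projection with infinite-dimensional range. -/
lemma exists_split (hA : IsMasa A)
    (hstep : ∀ T ∈ A, ∀ δ : ℝ, 0 < δ → ∃ (ι : Type) (_ : Fintype ι) (D : ι → H →L[ℂ] H)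
      (c : ι → ℂ),
      OrthoFam D ∧ (∀ i, D i ∈ A) ∧ ∀ η : H, ‖T η - ∑ i, c i • D i η‖ ≤ δ * ‖η‖)
    {R : H →L[ℂ] H} (hRA : R ∈ A) (hR : IsStarProjection R)
    (hinf : ¬ FiniteDimensional ℂ (rg R)) :
    ∃ R' ∈ A, IsStarProjection R' ∧ R * R' = R' ∧ R' ≠ 0 ∧ IsStarProjection (R - R') ∧
      ¬ FiniteDimensional ℂ (rg (R - R')) := by
  have hnotmin : ¬ (∀ p ∈ A, IsStarProjection p → R * p = p → p = 0 ∨ p = R) := fun hmin =>
    hinf (finiteDimensional_range_of_minimal hA hstep hRA hR hmin)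
  push Not at hnotmin
  obtain ⟨p, hpA, hp, hRp, hp0, hpR⟩ := hnotmin
  have hsub : IsStarProjection (R - p) := hp.sub_of_mul_eq_right hR hRp
  have hle : rg R ≤ rg p ⊔ rg (R - p) := by
    intro x hx
    obtain ⟨y, rfl⟩ := (mem_rg R x).mp hx
    have : R y = p y + (R - p) y := by
      rw [_root_.sub_apply]; abel
    rw [this]
    exact Submodule.add_mem_sup ((mem_rg p _).mpr ⟨y, rfl⟩) ((mem_rg (R - p) _).mpr ⟨y, rfl⟩)
  by_cases hfin : FiniteDimensional ℂ (rg (R - p))
  · have hpinf : ¬ FiniteDimensional ℂ (rg p) := by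
      intro hpf
      exact hinf (Submodule.finiteDimensional_of_le hle)
    refine ⟨R - p, hA.sub_mem hRA hpA, hsub, ?_, sub_ne_zero.mpr (Ne.symm hpR), ?_, ?_⟩
    · rw [mul_sub, hR.isIdempotentElem.eq, hRp]
    · rw [sub_sub_cancel]; exact hp
    · rw [sub_sub_cancel]; exact hpinf
  · exact ⟨p, hpA, hp, hRp, hp0, hsub, hfin⟩

end InfAux

open InfAux in
/-- **A MASA on an infinite-dimensional space contains arbitrarily many mutually orthogonal
nonzero projections.** -/
theorem IsMasa.exists_orthogonal_projections_of_infinite (hA : IsMasa A)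
    (hstep : ∀ T ∈ A, ∀ δ : ℝ, 0 < δ → ∃ (ι : Type) (_ : Fintype ι) (D : ι → H →L[ℂ] H) (c : ι → ℂ),
      OrthoFam D ∧ (∀ i, D i ∈ A) ∧ ∀ η : H, ‖T η - ∑ i, c i • D i η‖ ≤ δ * ‖η‖)
    (hinf : ¬ FiniteDimensional ℂ H) (N : ℕ) :
    ∃ q : Fin N → H →L[ℂ] H,
      (∀ k, q k ∈ A ∧ IsStarProjection (q k) ∧ q k ≠ 0) ∧ ∀ k l, k ≠ l → q k * q l = 0 := by
  have key : ∀ N : ℕ, ∃ (q : Fin N → H →L[ℂ] H) (R : H →L[ℂ] H),
      (∀ k, q k ∈ A ∧ IsStarProjection (q k) ∧ q k ≠ 0) ∧ (∀ k l, k ≠ l → q k * q l = 0) ∧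
      R ∈ A ∧ IsStarProjection R ∧ (∀ k, R * q k = 0) ∧
      ¬ FiniteDimensional ℂ (rg R) := by
    intro N
    induction N with
    | zero =>
      refine ⟨Fin.elim0, 1, fun k => k.elim0, fun k => k.elim0, hA.one_mem,
        IsStarProjection.one _, fun k => k.elim0, ?_⟩
      intro hfin
      apply hinf
      have htop : rg (1 : H →L[ℂ] H) = ⊤ := by
        rw [eq_top_iff]
        intro x _
        exact (mem_rg 1 x).mpr ⟨x, rfl⟩
      rw [htop] at hfin
      exact (Submodule.topEquiv : (⊤ : Submodule ℂ H) ≃ₗ[ℂ] H).finiteDimensional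
    | succ N ih =>
      obtain ⟨q, R, hq, hqq, hRA, hR, hRq, hRinf⟩ := ih
      obtain ⟨R', hR'A, hR', hRR', hR'0, hsub, hsubinf⟩ := exists_split hA hstep hRA hR hRinf
      have hcomm : ∀ k, q k * R' = 0 := fun k => by
        rw [← hRR', ← mul_assoc, hA.comm (hq k).1 hRA, hRq k, zero_mul]
      have hcomm' : ∀ k, R' * q k = 0 := fun k => by
        rw [hA.comm hR'A (hq k).1]; exact hcomm k
      refine ⟨Fin.cons R' q, R - R', ?_, ?_, hA.sub_mem hRA hR'A, hsub, ?_, hsubinf⟩
      · intro k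
        induction k using Fin.cases with
        | zero => exact ⟨hR'A, hR', hR'0⟩
        | succ j => exact hq j
      · intro k l hkl
        induction k using Fin.cases with
        | zero =>
          induction l using Fin.cases with
          | zero => exact absurd rfl hkl
          | succ j => simpa using hcomm' j
        | succ i =>
          induction l using Fin.cases with
          | zero => simpa using hcomm i
          | succ j =>
            have hij : i ≠ j := fun h => hkl (by rw [h])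
            simpa using hqq i j hij
      · intro k
        induction k using Fin.cases with
        | zero =>
          simp only [Fin.cons_zero]
          rw [sub_mul, hRR', hR'.isIdempotentElem.eq, sub_self]
        | succ j =>
          simp only [Fin.cons_succ]
          rw [sub_mul, hRq j, hcomm' j, sub_self]
  obtain ⟨q, R, h1, h2, _⟩ := key N
  exact ⟨q, h1, h2⟩

end Vale.Agent.Lib.P078
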