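import Mathlib
import Vale.Agent.Lib.P078.Abs.Basic
import Vale.Agent.Lib.P078.Flat
import Vale.Agent.Lib.P078.LowerGen

/-!
# P078 (abstract MASA): the lower bound

For a maximal abelian self-adjoint subalgebra `A` of `B(H)` without minimal projections and
`r ε < 1`, some self-adjoint operator is not `(ε, r)` so-pavable over `A`.
-/

namespace Vale.Agent.Lib.P078

open scoped InnerProductSpace

set_option linter.unusedSectionVars false

variable {H : Type*} [NormedAddCommGroup H] [InnerProductSpace ℂ H] [CompleteSpace H]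
variable {A : Set (H →L[ℂ] H)}

/-- `N` nonzero pairwise orthogonal projections of `A` together with a nonzero projection of `A`
orthogonal to all of them. -/
lemma IsMasa.exists_orth_projs [Nontrivial H] (hA : IsMasa A) (hmin : NoMinProj A) (N : ℕ) :
    ∃ (q : Fin N → H →L[ℂ] H) (R : H →L[ℂ] H),
      (∀ k, q k ∈ A ∧ IsStarProjection (q k) ∧ q k ≠ 0) ∧ (∀ k l, k ≠ l → q k * q l = 0) ∧
      R ∈ A ∧ IsStarProjection R ∧ R ≠ 0 ∧ ∀ k, R * q k = 0 := by
  induction N with
  | zero =>
    exact ⟨fun k => k.elim0, 1, fun k => k.elim0, fun k => k.elim0, hA.one_mem,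
      IsStarProjection.one _, one_ne_zero, fun k => k.elim0⟩
  | succ n ih =>
    obtain ⟨q, R, hq, hqo, hRA, hR, hR0, hRq⟩ := ih
    obtain ⟨R', hR'A, hR', hR'0, hR'ne, hRR'⟩ := hmin R hRA hR hR0
    have hR'R : R' * R = R' := by rw [hA.comm hR'A hRA, hRR']
    have hR'q : ∀ k, R' * q k = 0 := fun k => by
      rw [← hR'R, mul_assoc, hRq k, mul_zero]
    have hqR' : ∀ k, q k * R' = 0 := fun k => by
      rw [hA.comm (hq k).1 hR'A, hR'q k]
    have hRR : R * R = R := hR.isIdempotentElem.eq
    have hR'R' : R' * R' = R' := hR'.isIdempotentElem.eq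
    refine ⟨Fin.snoc q R', R - R', ?_, ?_, hA.sub_mem hRA hR'A, ?_, ?_, ?_⟩
    · intro k
      refine Fin.lastCases ?_ (fun i => ?_) k
      · simp only [Fin.snoc_last]
        exact ⟨hR'A, hR', hR'0⟩
      · simp only [Fin.snoc_castSucc]
        exact hq i
    · intro k l
      refine Fin.lastCases ?_ (fun i => ?_) k
      · refine Fin.lastCases ?_ (fun j => ?_) l
        · intro h
          exact absurd rfl h
        · intro _
          simp only [Fin.snoc_last, Fin.snoc_castSucc]
          exact hR'q j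
      · refine Fin.lastCases ?_ (fun j => ?_) l
        · intro _
          simp only [Fin.snoc_last, Fin.snoc_castSucc]
          exact hqR' i
        · intro h
          simp only [Fin.snoc_castSucc]
          exact hqo i j (fun hij => h (by rw [hij]))
    · refine ⟨?_, hR.isSelfAdjoint.sub hR'.isSelfAdjoint⟩
      show (R - R') * (R - R') = R - R'
      rw [mul_sub, sub_mul, sub_mul, hRR, hRR', hR'R, hR'R']
      abel
    · intro h
      exact hR'ne (sub_eq_zero.mp h).symm
    · intro k
      refine Fin.lastCases ?_ (fun i => ?_) k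
      · simp only [Fin.snoc_last]
        rw [sub_mul, hRR', hR'R', sub_self]
      · simp only [Fin.snoc_castSucc]
        rw [sub_mul, hRq i, hR'q i, sub_self]

/-- A nonzero projection fixes some unit vector. -/
lemma exists_unit_fixed {p : H →L[ℂ] H} (hp : IsStarProjection p) (hp0 : p ≠ 0) :
    ∃ g : H, ‖g‖ = 1 ∧ p g = g := by
  have hex : ∃ u : H, p u ≠ 0 := by
    by_contra hcon
    push Not at hcon
    exact hp0 (ContinuousLinearMap.ext (fun u => by simpa using hcon u))
  obtain ⟨u, hu⟩ := hex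
  have hpp : p (p u) = p u := by
    have := congrArg (fun T : H →L[ℂ] H => T u) hp.isIdempotentElem.eq
    simpa using this
  have hn : ‖p u‖ ≠ 0 := norm_ne_zero_iff.mpr hu
  refine ⟨((‖p u‖ : ℂ))⁻¹ • p u, ?_, ?_⟩
  · rw [norm_smul, norm_inv, Complex.norm_real, norm_norm, inv_mul_cancel₀ hn]
  · rw [map_smul, hpp]

/-- **Lower bound from orthogonal projections.**  If a maximal abelian self-adjoint subalgebra
`A` of `B(H)` contains arbitrarily long families of nonzero pairwise orthogonal projections and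
`r ε < 1`, then some self-adjoint operator is not `(ε, r)` so-pavable over `A`. -/
theorem IsMasa.not_soPavable_of_projections (hA : IsMasa A) (ε : ℝ) (hε : 0 < ε) (r : ℕ)
    (hr : (r : ℝ) * ε < 1)
    (hproj : ∀ N : ℕ, ∃ q : Fin N → H →L[ℂ] H,
      (∀ k, q k ∈ A ∧ IsStarProjection (q k) ∧ q k ≠ 0) ∧ ∀ k l, k ≠ l → q k * q l = 0) :
    ∃ x : H →L[ℂ] H, IsSelfAdjoint x ∧ ¬ SoPavable Set.univ A x ε r := by
  obtain ⟨N, hN⟩ := exists_nat_gt (2 / (1 / (r : ℝ) - ε))
  obtain ⟨q, hq, hqo⟩ := hproj (N + 1)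
  choose g hg1 hgq using fun k => exists_unit_fixed (hq k).2.1 (hq k).2.2
  have hsa : ∀ k, IsSelfAdjoint (q k) := fun k => (hq k).2.1.isSelfAdjoint
  have hqq : ∀ k l, k ≠ l → ∀ v : H, q k (q l v) = 0 := fun k l hkl v => by
    have := congrArg (fun T : H →L[ℂ] H => T v) (hqo k l hkl)
    simpa using this
  have horth : ∀ k l, k ≠ l → ∀ v : H, ⟪g k, q l v⟫_ℂ = 0 := fun k l hkl v => by
    rw [← hgq k, sa_inner (hsa k), hqq k l hkl, inner_zero_right]
  have hgo : Orthonormal ℂ g := by
    refine ⟨hg1, fun k l hkl => ?_⟩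
    show ⟪g k, g l⟫_ℂ = 0
    rw [← hgq l]
    exact horth k l hkl (g l)
  obtain ⟨w, hwo, hwA⟩ := exists_flat_family g hgo A (fun a ha j j' hjj => by
    have h1 : a (g j') = q j' (a (g j')) := by
      conv_lhs => rw [← hgq j']
      exact hA.comm_apply ha (hq j').1 (g j')
    rw [h1]
    exact horth j j' hjj _)
  refine ⟨symOp (w 0), symOp_isSelfAdjoint _, ?_⟩
  apply not_soPavable_of_family Set.univ A (w 0) (hwo.1 0) ε hε r hr (N + 1) _ w hwo
    (fun a ha i => hwA a ha i 0)
  push_cast
  linarith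

/-- A maximal abelian self-adjoint subalgebra of `B(H)` without minimal projections (`H` nonzero)
contains `N` nonzero pairwise orthogonal projections, for every `N`. -/
theorem IsMasa.exists_orthogonal_projections [Nontrivial H] (hA : IsMasa A) (hmin : NoMinProj A)
    (N : ℕ) : ∃ q : Fin N → H →L[ℂ] H,
      (∀ k, q k ∈ A ∧ IsStarProjection (q k) ∧ q k ≠ 0) ∧ ∀ k l, k ≠ l → q k * q l = 0 := by
  obtain ⟨q, R, hq, hqo, -, -, -, -⟩ := hA.exists_orth_projs hmin N
  exact ⟨q, hq, hqo⟩

/-- **Lower bound, abstract form.**  For a maximal abelian self-adjoint subalgebra `A` of `B(H)`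
without minimal projections and `r ε < 1`, some self-adjoint operator is not `(ε, r)` so-pavable
over `A`. -/
theorem IsMasa.exists_not_soPavable [Nontrivial H] (hA : IsMasa A) (hmin : NoMinProj A)
    (ε : ℝ) (hε : 0 < ε) (r : ℕ) (hr : (r : ℝ) * ε < 1) :
    ∃ x : H →L[ℂ] H, IsSelfAdjoint x ∧ ¬ SoPavable Set.univ A x ε r :=
  hA.not_soPavable_of_projections ε hε r hr (fun N => hA.exists_orthogonal_projections hmin N)

end Vale.Agent.Lib.P078
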