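import Mathlib
import Vale.Agent.Lib.P078.Abs.Basic

/-!
P078 (abstract MASA): step multiples of a vector.

For a maximal abelian self-adjoint algebra `A` and a vector `ζ`, a vector `φ` is a *step multiple*
of `ζ` when, on each piece of some finite partition of the identity into projections of `A`, it is
a scalar multiple of `ζ`.  The step multiples form a subspace, finitely many of them share one
common partition, and the subspace is infinite-dimensional as soon as `ζ ≠ 0` can be cut into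
arbitrarily small pieces.
-/

namespace Vale.Agent.Lib.P078

open scoped InnerProductSpace

set_option linter.unusedSectionVars false

variable {H : Type*} [NormedAddCommGroup H] [InnerProductSpace ℂ H] [CompleteSpace H]
variable {A : Set (H →L[ℂ] H)}

/-- the common refinement of two partitions of the identity in a MASA -/
theorem IsMasa.orthoFam_mul (hA : IsMasa A) {K K' : Type*} [Fintype K] [Fintype K']
    {B : K → H →L[ℂ] H} {B' : K' → H →L[ℂ] H} (hB : OrthoFam B) (hB' : OrthoFam B')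
    (hBA : ∀ ρ, B ρ ∈ A) (hBA' : ∀ ρ, B' ρ ∈ A) :
    OrthoFam (fun i : K × K' => B i.1 * B' i.2) := by
  classical
  have hswap : ∀ (a : K) (b : K') (c : K) (d : K'),
      (B a * B' b) * (B c * B' d) = (B a * B c) * (B' b * B' d) := by
    intro a b c d
    have hc : B' b * B c = B c * B' b := hA.comm (hBA' b) (hBA c)
    calc (B a * B' b) * (B c * B' d) = B a * (B' b * B c) * B' d := by
          simp only [mul_assoc]
      _ = B a * (B c * B' b) * B' d := by rw [hc]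
      _ = (B a * B c) * (B' b * B' d) := by simp only [mul_assoc]
  refine ⟨fun i => ⟨?_, ?_⟩, fun i j hij => ?_, ?_⟩
  · show (B i.1 * B' i.2) * (B i.1 * B' i.2) = B i.1 * B' i.2
    rw [hswap, (hB.1 i.1).isIdempotentElem.eq, (hB'.1 i.2).isIdempotentElem.eq]
  · show IsSelfAdjoint (B i.1 * B' i.2)
    rw [isSelfAdjoint_iff, star_mul, (hB.sa i.1).star_eq, (hB'.sa i.2).star_eq]
    exact hA.comm (hBA' _) (hBA _)
  · show (B i.1 * B' i.2) * (B j.1 * B' j.2) = 0
    rw [hswap]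
    by_cases h1 : i.1 = j.1
    · have h2 : i.2 ≠ j.2 := fun h2 => hij (Prod.ext h1 h2)
      rw [hB'.2.1 _ _ h2, mul_zero]
    · rw [hB.2.1 _ _ h1, zero_mul]
  · rw [Fintype.sum_prod_type]
    simp only
    rw [← Finset.sum_mul_sum, hB.2.2, hB'.2.2, mul_one]

/-- `φ` is a step multiple of `ζ`: on each piece of some finite partition of the identity into
projections of `A`, `φ` is a scalar multiple of `ζ`. -/
def IsStepOf (A : Set (H →L[ℂ] H)) (ζ φ : H) : Prop :=
  ∃ (K : Type) (_ : Fintype K) (B : K → H →L[ℂ] H),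
    OrthoFam B ∧ (∀ ρ, B ρ ∈ A) ∧ ∀ ρ, ∃ c : ℂ, B ρ φ = c • B ρ ζ

/-- the one-piece partition -/
lemma orthoFam_unit : OrthoFam (fun _ : Unit => (1 : H →L[ℂ] H)) := by
  refine ⟨fun _ => ⟨?_, ?_⟩, fun i j hij => ?_, ?_⟩
  · show (1 : H →L[ℂ] H) * 1 = 1
    rw [mul_one]
  · exact IsSelfAdjoint.one _
  · exact absurd (Subsingleton.elim i j) hij
  · simp

/-- a vector that is a step multiple over `B` stays one over the refinement by `B'` -/
lemma IsMasa.step_refine_left (hA : IsMasa A) {ζ φ : H} {K K' : Type*}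
    {B : K → H →L[ℂ] H} {B' : K' → H →L[ℂ] H}
    (hBA : ∀ ρ, B ρ ∈ A) (hBA' : ∀ ρ, B' ρ ∈ A) (ρ : K) (ρ' : K') {c : ℂ}
    (h : B ρ φ = c • B ρ ζ) : (B ρ * B' ρ') φ = c • (B ρ * B' ρ') ζ := by
  simp only [mul_apply_eq_comp]
  rw [hA.comm_apply (hBA ρ) (hBA' ρ') φ, h, map_smul, hA.comm_apply (hBA ρ) (hBA' ρ') ζ]

/-- a vector that is a step multiple over `B'` stays one over the refinement by `B` -/
lemma step_refine_right {ζ φ : H} {K K' : Type*}
    {B : K → H →L[ℂ] H} {B' : K' → H →L[ℂ] H} (ρ : K) (ρ' : K') {c : ℂ}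
    (h : B' ρ' φ = c • B' ρ' ζ) : (B ρ * B' ρ') φ = c • (B ρ * B' ρ') ζ := by
  simp only [mul_apply_eq_comp]
  rw [h, map_smul]

/-- the step multiples of `ζ` form a subspace -/
def stepSub (hA : IsMasa A) (ζ : H) : Submodule ℂ H where
  carrier := {φ | IsStepOf A ζ φ}
  add_mem' := by
    rintro φ ψ ⟨K, hK, B, hB, hBA, hc⟩ ⟨K', hK', B', hB', hBA', hc'⟩
    refine ⟨K × K', inferInstance, fun i => B i.1 * B' i.2,
      hA.orthoFam_mul hB hB' hBA hBA', fun i => hA.mul_mem (hBA _) (hBA' _), fun i => ?_⟩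
    obtain ⟨c, h⟩ := hc i.1
    obtain ⟨c', h'⟩ := hc' i.2
    refine ⟨c + c', ?_⟩
    rw [map_add, hA.step_refine_left hBA hBA' i.1 i.2 h,
      step_refine_right i.1 i.2 h', add_smul]
  zero_mem' := by
    refine ⟨Unit, inferInstance, fun _ => 1, orthoFam_unit, fun _ => hA.one_mem, fun _ => ?_⟩
    exact ⟨0, by simp⟩
  smul_mem' := by
    rintro a φ ⟨K, hK, B, hB, hBA, hc⟩
    refine ⟨K, hK, B, hB, hBA, fun ρ => ?_⟩
    obtain ⟨c, h⟩ := hc ρ
    exact ⟨a * c, by rw [map_smul, h, smul_smul]⟩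

lemma mem_stepSub (hA : IsMasa A) (ζ φ : H) : φ ∈ stepSub hA ζ ↔ IsStepOf A ζ φ := Iff.rfl

/-- a step operator applied to `ζ` is a step multiple of `ζ` -/
theorem IsMasa.step_mem (hA : IsMasa A) (ζ : H) {ι : Type} [Fintype ι] {D : ι → H →L[ℂ] H}
    (hD : OrthoFam D) (hDA : ∀ i, D i ∈ A) (c : ι → ℂ) :
    ∑ i, c i • D i ζ ∈ stepSub hA ζ := by
  classical
  refine ⟨ι, inferInstance, D, hD, hDA, fun i => ⟨c i, ?_⟩⟩
  rw [map_sum, Finset.sum_eq_single i]
  · rw [map_smul, hD.idem]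
  · intro j _ hji
    rw [map_smul, hD.apply_apply_of_ne (Ne.symm hji), smul_zero]
  · intro h
    exact absurd (Finset.mem_univ i) h

/-- finitely many step multiples of `ζ` are step multiples over one common partition -/
theorem IsMasa.exists_cells (hA : IsMasa A) (ζ : H) {m : ℕ} (φ : Fin m → H)
    (hφ : ∀ l, φ l ∈ stepSub hA ζ) :
    ∃ (K : Type) (_ : Fintype K) (B : K → H →L[ℂ] H),
      OrthoFam B ∧ (∀ ρ, B ρ ∈ A) ∧ ∀ l ρ, ∃ c : ℂ, B ρ (φ l) = c • B ρ ζ := by
  induction m with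
  | zero =>
    exact ⟨Unit, inferInstance, fun _ => 1, orthoFam_unit, fun _ => hA.one_mem,
      fun l => l.elim0⟩
  | succ m ih =>
    obtain ⟨K, hK, B, hB, hBA, hc⟩ := ih (fun l => φ l.succ) (fun l => hφ l.succ)
    obtain ⟨K', hK', B', hB', hBA', hc'⟩ := hφ 0
    refine ⟨K × K', inferInstance, fun i => B i.1 * B' i.2,
      hA.orthoFam_mul hB hB' hBA hBA', fun i => hA.mul_mem (hBA _) (hBA' _), fun l i => ?_⟩
    induction l using Fin.cases with
    | zero =>
      obtain ⟨c', h'⟩ := hc' i.2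
      exact ⟨c', step_refine_right i.1 i.2 h'⟩
    | succ l =>
      obtain ⟨c, h⟩ := hc l i.1
      exact ⟨c, hA.step_refine_left hBA hBA' i.1 i.2 h⟩

/-- if `ζ ≠ 0` admits partitions into pieces that are arbitrarily small on `ζ`, then the step
multiples of `ζ` form an infinite-dimensional space -/
theorem IsMasa.stepSub_infinite (hA : IsMasa A) (ζ : H) (hζ : ζ ≠ 0)
    (hsmall : ∀ η : ℝ, 0 < η → ∃ (N : ℕ) (I : Fin N → H →L[ℂ] H),
      OrthoFam I ∧ (∀ k, I k ∈ A) ∧ ∀ k, ‖I k ζ‖ ^ 2 ≤ η) :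
    ¬ FiniteDimensional ℂ (stepSub hA ζ) := by
  intro hfin
  classical
  set d : ℕ := Module.finrank ℂ (stepSub hA ζ) with hd
  have hζpos : 0 < ‖ζ‖ ^ 2 := by
    have : 0 < ‖ζ‖ := norm_pos_iff.mpr hζ
    positivity
  have hd1 : (0 : ℝ) < (d : ℝ) + 1 := by positivity
  obtain ⟨N, I, hI, hIA, hIs⟩ := hsmall (‖ζ‖ ^ 2 / ((d : ℝ) + 1)) (div_pos hζpos hd1)
  have hmem : ∀ k, I k ζ ∈ stepSub hA ζ := by
    intro k
    have h := hA.step_mem ζ hI hIA (fun i => if i = k then 1 else 0)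
    have h2 : ∑ i, (if i = k then (1 : ℂ) else 0) • I i ζ = I k ζ := by
      rw [Finset.sum_eq_single k]
      · rw [if_pos rfl, one_smul]
      · intro j _ hjk
        rw [if_neg hjk, zero_smul]
      · intro h'
        exact absurd (Finset.mem_univ k) h'
    rw [h2] at h
    exact h
  set S : Finset (Fin N) := Finset.univ.filter (fun k => I k ζ ≠ 0) with hS
  have hsum : ‖ζ‖ ^ 2 = ∑ k ∈ S, ‖I k ζ‖ ^ 2 := by
    rw [hI.norm_sq_eq_sum ζ]
    symm
    apply Finset.sum_subset (Finset.subset_univ _)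
    intro k _ hk
    have hk0 : I k ζ = 0 := by
      by_contra hne
      exact hk (Finset.mem_filter.mpr ⟨Finset.mem_univ k, hne⟩)
    rw [hk0]
    simp
  have hcard : (d : ℝ) + 1 ≤ (S.card : ℝ) := by
    have h1 : ∑ k ∈ S, ‖I k ζ‖ ^ 2 ≤ (S.card : ℝ) * (‖ζ‖ ^ 2 / ((d : ℝ) + 1)) := by
      calc ∑ k ∈ S, ‖I k ζ‖ ^ 2 ≤ ∑ _k ∈ S, (‖ζ‖ ^ 2 / ((d : ℝ) + 1)) :=
            Finset.sum_le_sum (fun k _ => hIs k)
        _ = (S.card : ℝ) * (‖ζ‖ ^ 2 / ((d : ℝ) + 1)) := by
            rw [Finset.sum_const, nsmul_eq_mul]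
    rw [← hsum, ← mul_div_assoc, le_div_iff₀ hd1] at h1
    by_contra hcon
    rw [not_le] at hcon
    nlinarith
  let v : S → stepSub hA ζ := fun k => ⟨I k.1 ζ, hmem k.1⟩
  have hv : LinearIndependent ℂ v := by
    apply linearIndependent_of_ne_zero_of_inner_eq_zero
    · intro k hk
      have hk0 : I k.1 ζ = 0 := congrArg Subtype.val hk
      exact (Finset.mem_filter.mp k.2).2 hk0
    · intro k l hkl
      show ⟪v k, v l⟫_ℂ = 0
      rw [Submodule.coe_inner]
      exact hI.inner_of_ne (fun h => hkl (Subtype.ext h)) ζ ζ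
  have h3 := hv.fintype_card_le_finrank
  rw [Fintype.card_coe] at h3
  have h4 : (S.card : ℝ) ≤ (d : ℝ) := by exact_mod_cast h3
  linarith

end Vale.Agent.Lib.P078
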