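import Mathlib
import Vale.Agent.Lib.P078.Abs.Basic

/-!
P078 (abstract MASA): partitions of the identity into pieces that are small on a vector

For a maximal abelian self-adjoint subalgebra `A` of `B(H)` without minimal projections and a
vector `ζ`, the identity splits into finitely many projections `I k` of `A` with
`‖I k ζ‖ ^ 2 ≤ η`.  This is the abstract counterpart of `hasSmallPartitions_of_atomless`, with
the vector state `p ↦ ‖p ζ‖ ^ 2` in place of the measure.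
-/

namespace Vale.Agent.Lib.P078

open scoped InnerProductSpace

set_option linter.unusedSectionVars false

variable {H : Type*} [NormedAddCommGroup H] [InnerProductSpace ℂ H] [CompleteSpace H]
variable {A : Set (H →L[ℂ] H)}

/-- the common fixed vectors of a set of operators -/
def fixSub (F : Set (H →L[ℂ] H)) : Submodule ℂ H where
  carrier := {u | ∀ q ∈ F, q u = u}
  add_mem' := by
    intro a b ha hb q hq
    rw [map_add, ha q hq, hb q hq]
  zero_mem' := by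
    intro q _
    exact map_zero q
  smul_mem' := by
    intro c a ha q hq
    rw [map_smul, ha q hq]

lemma mem_fixSub (F : Set (H →L[ℂ] H)) (u : H) : u ∈ fixSub F ↔ ∀ q ∈ F, q u = u := Iff.rfl

lemma fixSub_isClosed (F : Set (H →L[ℂ] H)) : IsClosed (fixSub F : Set H) := by
  have h : (fixSub F : Set H) = ⋂ q ∈ F, {u : H | q u = u} := by
    ext u
    simp only [SetLike.mem_coe, mem_fixSub, Set.mem_iInter, Set.mem_ofPred_eq]
  rw [h]
  exact isClosed_biInter (fun q _ => isClosed_eq q.continuous continuous_id)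

instance fixSub_complete (F : Set (H →L[ℂ] H)) : CompleteSpace (fixSub F) :=
  (fixSub_isClosed F).completeSpace_coe

/-- the projection onto the common fixed vectors of a set of operators -/
noncomputable def fixProj (F : Set (H →L[ℂ] H)) : H →L[ℂ] H := (fixSub F).starProjection

lemma fixProj_isStarProjection (F : Set (H →L[ℂ] H)) : IsStarProjection (fixProj F) :=
  isStarProjection_starProjection

lemma fixProj_apply_eq_self_iff (F : Set (H →L[ℂ] H)) (u : H) :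
    fixProj F u = u ↔ ∀ q ∈ F, q u = u :=
  Submodule.starProjection_eq_self_iff

lemma fixProj_mul (F : Set (H →L[ℂ] H)) {q : H →L[ℂ] H} (hq : q ∈ F) :
    q * fixProj F = fixProj F := by
  apply ContinuousLinearMap.ext
  intro u
  rw [mul_apply_eq_comp]
  exact (Submodule.starProjection_apply_mem (fixSub F) u) q hq

lemma IsMasa.fixProj_mem (hA : IsMasa A) (F : Set (H →L[ℂ] H)) (hF : F ⊆ A) :
    fixProj F ∈ A := by
  apply hA.proj_mem_of_invariant
  intro T hT u hu q hq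
  rw [hA.comm_apply (hF hq) hT, hu q hq]

/-- the difference of two comparable projections of `A` -/
lemma IsMasa.sub_proj (hA : IsMasa A) {p p' : H →L[ℂ] H} (hpA : p ∈ A) (hp'A : p' ∈ A)
    (hp : IsStarProjection p) (hp' : IsStarProjection p') (hle : p * p' = p') :
    (p - p') ∈ A ∧ IsStarProjection (p - p') ∧ p * (p - p') = p - p' ∧ p' * (p - p') = 0 := by
  have hle' : p' * p = p' := by rw [hA.comm hp'A hpA]; exact hle
  refine ⟨hA.sub_mem hpA hp'A, ⟨?_, hp.isSelfAdjoint.sub hp'.isSelfAdjoint⟩, ?_, ?_⟩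
  · show (p - p') * (p - p') = p - p'
    rw [sub_mul, mul_sub, mul_sub, hp.isIdempotentElem.eq, hp'.isIdempotentElem.eq, hle, hle']
    abel
  · rw [mul_sub, hp.isIdempotentElem.eq, hle]
  · rw [mul_sub, hle', hp'.isIdempotentElem.eq, sub_self]

/-- additivity of the vector state on comparable projections -/
lemma IsMasa.norm_sq_split (hA : IsMasa A) {p p' : H →L[ℂ] H} (hpA : p ∈ A) (hp'A : p' ∈ A)
    (hp : IsStarProjection p) (hp' : IsStarProjection p') (hle : p * p' = p') (ζ : H) :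
    ‖p ζ‖ ^ 2 = ‖p' ζ‖ ^ 2 + ‖(p - p') ζ‖ ^ 2 := by
  obtain ⟨-, -, -, h0⟩ := hA.sub_proj hpA hp'A hp hp' hle
  have h1 : p ζ = p' ζ + (p - p') ζ := by
    rw [_root_.sub_apply]; abel
  have h2 : ⟪p' ζ, (p - p') ζ⟫_ℂ = 0 := by
    rw [sa_inner hp'.isSelfAdjoint, ← mul_apply_eq_comp, h0]
    simp
  have h3 := norm_add_sq (𝕜 := ℂ) (p' ζ) ((p - p') ζ)
  rw [h2] at h3
  rw [h1, h3]
  simp

/-- no atoms: below a projection that does not kill `ζ` there is a strictly smaller one -/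
lemma IsMasa.exists_smaller (hA : IsMasa A) (hmin : NoMinProj A) (ζ : H) {p : H →L[ℂ] H}
    (hpA : p ∈ A) (hp : IsStarProjection p) (hpζ : p ζ ≠ 0) :
    ∃ p' ∈ A, IsStarProjection p' ∧ p * p' = p' ∧ 0 < ‖p' ζ‖ ∧ ‖p' ζ‖ < ‖p ζ‖ := by
  set F : Set (H →L[ℂ] H) :=
    {p' | p' ∈ A ∧ IsStarProjection p' ∧ p * p' = p' ∧ p' ζ = p ζ} with hF
  have hFA : F ⊆ A := fun q hq => hq.1
  have hpF : p ∈ F := ⟨hpA, hp, hp.isIdempotentElem.eq, rfl⟩
  set q := fixProj F with hq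
  have hqA : q ∈ A := hA.fixProj_mem F hFA
  have hqP : IsStarProjection q := fixProj_isStarProjection F
  have hFq : ∀ p' ∈ F, p' * q = q := fun p' hp' => fixProj_mul F hp'
  have hpq : p * q = q := hFq p hpF
  have hqp : q * p = q := by rw [hA.comm hqA hpA]; exact hpq
  have hqpζ : q (p ζ) = p ζ := by
    rw [hq, fixProj_apply_eq_self_iff]
    intro p' hp'
    rw [hA.comm_apply hp'.1 hpA, hp'.2.2.2, ← mul_apply_eq_comp, hp.isIdempotentElem.eq]
  have hqζ : q ζ = p ζ := by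
    rw [← hqpζ, ← mul_apply_eq_comp, hqp]
  have hq0 : q ≠ 0 := by
    intro h0
    apply hpζ
    rw [← hqζ, h0]
    simp
  obtain ⟨q', hq'A, hq'P, hq'0, hq'ne, hqq'⟩ := hmin q hqA hqP hq0
  have hq'q : q' * q = q' := by rw [hA.comm hq'A hqA]; exact hqq'
  have hpq' : p * q' = q' := by rw [← hqq', ← mul_assoc, hpq]
  have hsplit := hA.norm_sq_split hqA hq'A hqP hq'P hqq' ζ
  obtain ⟨hdA, hdP, hqd, hq'd⟩ := hA.sub_proj hqA hq'A hqP hq'P hqq'
  have hne1 : q' ζ ≠ 0 := by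
    intro h0
    have hmem : q - q' ∈ F := by
      refine ⟨hdA, hdP, ?_, ?_⟩
      · rw [mul_sub, hpq, hpq']
      · rw [_root_.sub_apply, h0, sub_zero, hqζ]
    have h1 := hFq _ hmem
    rw [sub_mul, hqP.isIdempotentElem.eq, hq'q] at h1
    exact hq'0 (sub_eq_self.mp h1)
  have hne2 : ‖q' ζ‖ ≠ ‖q ζ‖ := by
    intro heq
    have hd0 : (q - q') ζ = 0 := by
      rw [heq] at hsplit
      have h3 : ‖(q - q') ζ‖ ^ 2 = 0 := by linarith
      simpa using h3
    have hq'ζ : q' ζ = p ζ := by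
      rw [_root_.sub_apply, sub_eq_zero] at hd0
      rw [← hd0, hqζ]
    have hmem : q' ∈ F := ⟨hq'A, hq'P, hpq', hq'ζ⟩
    have h1 := hFq _ hmem
    rw [hq'q] at h1
    exact hq'ne h1
  refine ⟨q', hq'A, hq'P, hpq', norm_pos_iff.mpr hne1, ?_⟩
  rw [← hqζ]
  have hle : ‖q' ζ‖ ^ 2 ≤ ‖q ζ‖ ^ 2 := by
    rw [hsplit]
    nlinarith [sq_nonneg ‖(q - q') ζ‖]
  have hle' : ‖q' ζ‖ ≤ ‖q ζ‖ := le_of_sq_le_sq hle (norm_nonneg _)
  exact lt_of_le_of_ne hle' hne2

/-- halving -/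
lemma IsMasa.exists_half (hA : IsMasa A) (hmin : NoMinProj A) (ζ : H) {p : H →L[ℂ] H}
    (hpA : p ∈ A) (hp : IsStarProjection p) (hpζ : p ζ ≠ 0) :
    ∃ p' ∈ A, IsStarProjection p' ∧ p * p' = p' ∧ p' ζ ≠ 0 ∧ ‖p' ζ‖ ^ 2 ≤ ‖p ζ‖ ^ 2 / 2 := by
  obtain ⟨p', hp'A, hp'P, hle, hpos, hlt⟩ := hA.exists_smaller hmin ζ hpA hp hpζ
  have hsplit := hA.norm_sq_split hpA hp'A hp hp'P hle ζ
  obtain ⟨hdA, hdP, hpd, -⟩ := hA.sub_proj hpA hp'A hp hp'P hle
  by_cases hc : ‖p' ζ‖ ^ 2 ≤ ‖p ζ‖ ^ 2 / 2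
  · exact ⟨p', hp'A, hp'P, hle, norm_pos_iff.mp hpos, hc⟩
  · refine ⟨p - p', hdA, hdP, hpd, ?_, ?_⟩
    · intro h0
      rw [h0, norm_zero] at hsplit
      have h1 : ‖p ζ‖ ^ 2 = ‖p' ζ‖ ^ 2 := by rw [hsplit]; ring
      have h2 : ‖p' ζ‖ ^ 2 < ‖p ζ‖ ^ 2 := pow_lt_pow_left₀ hlt (norm_nonneg _) (by norm_num)
      linarith
    · rw [not_le] at hc
      linarith

/-- arbitrarily small nonzero pieces -/
lemma IsMasa.exists_small (hA : IsMasa A) (hmin : NoMinProj A) (ζ : H) {p : H →L[ℂ] H}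
    (hpA : p ∈ A) (hp : IsStarProjection p) (hpζ : p ζ ≠ 0) (ε : ℝ) (hε : 0 < ε) :
    ∃ p' ∈ A, IsStarProjection p' ∧ p * p' = p' ∧ p' ζ ≠ 0 ∧ ‖p' ζ‖ ^ 2 ≤ ε := by
  have key : ∀ n : ℕ, ∃ p' ∈ A, IsStarProjection p' ∧ p * p' = p' ∧ p' ζ ≠ 0 ∧
      ‖p' ζ‖ ^ 2 ≤ ‖p ζ‖ ^ 2 / 2 ^ n := by
    intro n
    induction n with
    | zero => exact ⟨p, hpA, hp, hp.isIdempotentElem.eq, hpζ, by simp⟩
    | succ n ih =>
      obtain ⟨p1, h1A, h1P, h1le, h1ne, h1b⟩ := ih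
      obtain ⟨p2, h2A, h2P, h2le, h2ne, h2b⟩ := hA.exists_half hmin ζ h1A h1P h1ne
      refine ⟨p2, h2A, h2P, ?_, h2ne, ?_⟩
      · rw [← h2le, ← mul_assoc, h1le]
      · calc ‖p2 ζ‖ ^ 2 ≤ ‖p1 ζ‖ ^ 2 / 2 := h2b
          _ ≤ (‖p ζ‖ ^ 2 / 2 ^ n) / 2 := by linarith
          _ = ‖p ζ‖ ^ 2 / 2 ^ (n + 1) := by rw [pow_succ (2 : ℝ) n, div_div]
  obtain ⟨n, hn⟩ := pow_unbounded_of_one_lt (‖p ζ‖ ^ 2 / ε) (one_lt_two)
  obtain ⟨p', h1, h2, h3, h4, h5⟩ := key n
  refine ⟨p', h1, h2, h3, h4, h5.trans ?_⟩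
  rw [div_le_iff₀ (by positivity)]
  rw [div_lt_iff₀ hε] at hn
  linarith

/-- the admissible small pieces below `R` -/
def SmallBelow (A : Set (H →L[ℂ] H)) (ζ : H) (η : ℝ) (R t : H →L[ℂ] H) : Prop :=
  t ∈ A ∧ IsStarProjection t ∧ R * t = t ∧ ‖t ζ‖ ^ 2 ≤ η

/-- a near-maximal admissible small piece below `R` -/
lemma IsMasa.exists_pick (hA : IsMasa A) (ζ : H) (η : ℝ) (hη : 0 < η) (R : H →L[ℂ] H) :
    ∃ t, SmallBelow A ζ η R t ∧ ∀ t', SmallBelow A ζ η R t' → ‖t' ζ‖ ^ 2 ≤ 2 * ‖t ζ‖ ^ 2 := by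
  have h0 : SmallBelow A ζ η R 0 :=
    ⟨hA.zero_mem, IsStarProjection.zero _, by simp, by simpa using hη.le⟩
  set S : Set ℝ := (fun t : H →L[ℂ] H => ‖t ζ‖ ^ 2) '' {t | SmallBelow A ζ η R t} with hS
  have hbdd : BddAbove S := ⟨η, by rintro _ ⟨t, ht, rfl⟩; exact ht.2.2.2⟩
  have hne : S.Nonempty := ⟨_, ⟨0, h0, rfl⟩⟩
  by_cases hM : sSup S ≤ 0
  · refine ⟨0, h0, fun t' ht' => ?_⟩
    have h1 : ‖t' ζ‖ ^ 2 ≤ sSup S := le_csSup hbdd ⟨t', ht', rfl⟩
    have e : ‖(0 : H →L[ℂ] H) ζ‖ = 0 := by simp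
    rw [e]
    linarith
  · rw [not_le] at hM
    obtain ⟨x, hxS, hx⟩ := exists_lt_of_lt_csSup hne (show sSup S / 2 < sSup S by linarith)
    obtain ⟨t, ht, rfl⟩ := hxS
    refine ⟨t, ht, fun t' ht' => ?_⟩
    have h1 : ‖t' ζ‖ ^ 2 ≤ sSup S := le_csSup hbdd ⟨t', ht', rfl⟩
    simp only at hx
    linarith

/-- the sequence of remainders of the greedy exhaustion -/
noncomputable def remSeq (pick : (H →L[ℂ] H) → (H →L[ℂ] H)) : ℕ → (H →L[ℂ] H)
  | 0 => 1
  | n + 1 => remSeq pick n - pick (remSeq pick n)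

lemma remSeq_zero (pick : (H →L[ℂ] H) → (H →L[ℂ] H)) : remSeq pick 0 = 1 := rfl

lemma remSeq_succ (pick : (H →L[ℂ] H) → (H →L[ℂ] H)) (n : ℕ) :
    remSeq pick (n + 1) = remSeq pick n - pick (remSeq pick n) := rfl

/-- **Small partitions.**  In a maximal abelian self-adjoint subalgebra without minimal
projections, the identity is a finite sum of mutually orthogonal projections of the algebra
each of which is small on the given vector. -/
theorem IsMasa.exists_small_partition (hA : IsMasa A) (hmin : NoMinProj A) (ζ : H) (η : ℝ)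
    (hη : 0 < η) :
    ∃ (N : ℕ) (I : Fin N → H →L[ℂ] H), OrthoFam I ∧ (∀ k, I k ∈ A) ∧ ∀ k, ‖I k ζ‖ ^ 2 ≤ η := by
  choose pick hp1 hp2 using hA.exists_pick ζ η hη
  -- the remainders and the pieces
  obtain ⟨Rs, hRs0, hRsS'⟩ : ∃ Rs : ℕ → H →L[ℂ] H, Rs 0 = 1 ∧
      ∀ n, Rs (n + 1) = Rs n - pick (Rs n) := ⟨remSeq pick, rfl, fun n => rfl⟩
  obtain ⟨ts, hts⟩ : ∃ ts : ℕ → H →L[ℂ] H, ∀ n, ts n = pick (Rs n) :=
    ⟨fun n => pick (Rs n), fun n => rfl⟩
  have hRsS : ∀ n, Rs (n + 1) = Rs n - ts n := fun n => by rw [hts n]; exact hRsS' n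
  have htC : ∀ n, SmallBelow A ζ η (Rs n) (ts n) := fun n => by rw [hts n]; exact hp1 (Rs n)
  have hp2' : ∀ n t', SmallBelow A ζ η (Rs n) t' → ‖t' ζ‖ ^ 2 ≤ 2 * ‖ts n ζ‖ ^ 2 :=
    fun n t' h => by rw [hts n]; exact hp2 (Rs n) t' h
  clear hRsS' hts hp1 hp2
  have hRP : ∀ n, Rs n ∈ A ∧ IsStarProjection (Rs n) := by
    intro n
    induction n with
    | zero => rw [hRs0]; exact ⟨hA.one_mem, IsStarProjection.one _⟩
    | succ n ih =>
      rw [hRsS]
      obtain ⟨h1, h2, -, -⟩ := hA.sub_proj ih.1 (htC n).1 ih.2 (htC n).2.1 (htC n).2.2.1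
      exact ⟨h1, h2⟩
  have hstep : ∀ n, Rs n * Rs (n + 1) = Rs (n + 1) ∧ ts n * Rs (n + 1) = 0 := by
    intro n
    obtain ⟨-, -, h3, h4⟩ :=
      hA.sub_proj (hRP n).1 (htC n).1 (hRP n).2 (htC n).2.1 (htC n).2.2.1
    rw [hRsS]
    exact ⟨h3, h4⟩
  have hmono : ∀ n m, n ≤ m → Rs n * Rs m = Rs m := by
    intro n m hnm
    induction m, hnm using Nat.le_induction with
    | base => exact (hRP n).2.isIdempotentElem.eq
    | succ m hnm ih => rw [← (hstep m).1, ← mul_assoc, ih]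
  have hnormsplit : ∀ n, ‖Rs n ζ‖ ^ 2 = ‖ts n ζ‖ ^ 2 + ‖Rs (n + 1) ζ‖ ^ 2 := fun n => by
    rw [hRsS]
    exact hA.norm_sq_split (hRP n).1 (htC n).1 (hRP n).2 (htC n).2.1 (htC n).2.2.1 ζ
  obtain ⟨a, ha⟩ : ∃ a : ℕ → ℝ, ∀ n, a n = ‖Rs n ζ‖ ^ 2 := ⟨fun n => ‖Rs n ζ‖ ^ 2, fun n => rfl⟩
  have ha_anti : Antitone a := antitone_nat_of_succ_le (fun n => by
    rw [ha, ha, hnormsplit n]
    nlinarith [sq_nonneg ‖ts n ζ‖])
  have ha_nonneg : ∀ n, 0 ≤ a n := fun n => by rw [ha]; positivity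
  obtain ⟨l, hl⟩ : ∃ l, Filter.Tendsto a Filter.atTop (nhds l) :=
    ⟨_, tendsto_atTop_ciInf ha_anti ⟨0, by rintro _ ⟨n, rfl⟩; exact ha_nonneg n⟩⟩
  have hts0 : Filter.Tendsto (fun n => ‖ts n ζ‖ ^ 2) Filter.atTop (nhds 0) := by
    have h1 : Filter.Tendsto (fun n => a n - a (n + 1)) Filter.atTop (nhds (l - l)) :=
      hl.sub (hl.comp (Filter.tendsto_add_atTop_nat 1))
    rw [sub_self] at h1
    refine h1.congr (fun n => ?_)
    rw [ha, ha, hnormsplit n]
    ring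
  have hex : ∃ n, a n ≤ η := by
    by_contra hcon
    push Not at hcon
    have hdist : ∀ n m, n ≤ m → ‖Rs n ζ - Rs m ζ‖ ^ 2 = a n - a m := by
      intro n m hnm
      have h1 := hA.norm_sq_split (hRP n).1 (hRP m).1 (hRP n).2 (hRP m).2 (hmono n m hnm) ζ
      rw [_root_.sub_apply] at h1
      rw [ha, ha]
      linarith
    have hcauchy : CauchySeq (fun n => Rs n ζ) := by
      rw [Metric.cauchySeq_iff']
      intro ε hε
      have hac : CauchySeq a := hl.cauchySeq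
      rw [Metric.cauchySeq_iff'] at hac
      obtain ⟨N, hN⟩ := hac (ε ^ 2) (by positivity)
      refine ⟨N, fun n hn => ?_⟩
      have h1 := hN n hn
      rw [Real.dist_eq] at h1
      have h2 := hdist N n hn
      rw [dist_eq_norm, ← norm_neg, neg_sub]
      have h3 : ‖Rs N ζ - Rs n ζ‖ ^ 2 < ε ^ 2 := by
        rw [h2]
        have h4 := abs_lt.mp h1
        linarith
      exact lt_of_pow_lt_pow_left₀ 2 hε.le h3
    obtain ⟨u, hu⟩ := cauchySeq_tendsto_of_complete hcauchy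
    have hFA : Set.range Rs ⊆ A := by
      rintro _ ⟨n, rfl⟩
      exact (hRP n).1
    obtain ⟨Rinf, hRinf⟩ : ∃ Rinf : H →L[ℂ] H, Rinf = fixProj (Set.range Rs) := ⟨_, rfl⟩
    have hRinfA : Rinf ∈ A := by rw [hRinf]; exact hA.fixProj_mem _ hFA
    have hRinfP : IsStarProjection Rinf := by rw [hRinf]; exact fixProj_isStarProjection _
    have hRR : ∀ n, Rs n * Rinf = Rinf := fun n => by
      rw [hRinf]; exact fixProj_mul _ ⟨n, rfl⟩
    have hufix : ∀ k, Rs k u = u := by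
      intro k
      have h1 : Filter.Tendsto (fun n => Rs k (Rs n ζ)) Filter.atTop (nhds (Rs k u)) :=
        ((Rs k).continuous.tendsto u).comp hu
      have h2 : ∀ᶠ n in Filter.atTop, Rs k (Rs n ζ) = Rs n ζ := by
        filter_upwards [Filter.eventually_ge_atTop k] with n hn
        rw [← mul_apply_eq_comp, hmono k n hn]
      exact tendsto_nhds_unique (h1.congr' h2) hu
    have hRinfu : Rinf u = u := by
      rw [hRinf, fixProj_apply_eq_self_iff]
      rintro _ ⟨k, rfl⟩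
      exact hufix k
    have hRinfζ : Rinf ζ = u := by
      have h1 : Filter.Tendsto (fun n => Rinf (Rs n ζ)) Filter.atTop (nhds (Rinf u)) :=
        (Rinf.continuous.tendsto u).comp hu
      have h2 : ∀ n, Rinf (Rs n ζ) = Rinf ζ := by
        intro n
        rw [← mul_apply_eq_comp, hA.comm hRinfA (hRP n).1, hRR n]
      simp only [h2] at h1
      rw [hRinfu] at h1
      exact tendsto_nhds_unique tendsto_const_nhds h1
    have hunorm : η ≤ ‖u‖ ^ 2 := by
      have h1 : Filter.Tendsto (fun n => ‖Rs n ζ‖ ^ 2) Filter.atTop (nhds (‖u‖ ^ 2)) :=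
        (hu.norm).pow 2
      exact ge_of_tendsto' h1 (fun n => by rw [← ha]; exact (hcon n).le)
    have hu0 : Rinf ζ ≠ 0 := by
      rw [hRinfζ]
      intro h0
      rw [h0, norm_zero] at hunorm
      have h5 : (0 : ℝ) ^ 2 = 0 := by norm_num
      rw [h5] at hunorm
      linarith
    obtain ⟨t, htA, htP, htle, htne, htb⟩ := hA.exists_small hmin ζ hRinfA hRinfP hu0 η hη
    have htC' : ∀ n, SmallBelow A ζ η (Rs n) t := fun n =>
      ⟨htA, htP, by rw [← htle, ← mul_assoc, hRR n], htb⟩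
    have hle : ∀ n, ‖t ζ‖ ^ 2 ≤ 2 * ‖ts n ζ‖ ^ 2 := fun n => hp2' n t (htC' n)
    have hlim : Filter.Tendsto (fun n => 2 * ‖ts n ζ‖ ^ 2) Filter.atTop (nhds (2 * 0)) :=
      hts0.const_mul 2
    rw [mul_zero] at hlim
    have h6 : ‖t ζ‖ ^ 2 ≤ 0 := ge_of_tendsto' hlim hle
    have hpos : 0 < ‖t ζ‖ ^ 2 := pow_pos (norm_pos_iff.mpr htne) 2
    linarith
  obtain ⟨n, hn⟩ := hex
  rw [ha] at hn
  have htt : ∀ k l, k < l → ts k * ts l = 0 := by
    intro k l hkl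
    have h1 : Rs (k + 1) * ts l = ts l := by
      rw [← (htC l).2.2.1, ← mul_assoc, hmono (k + 1) l hkl]
    rw [← h1, ← mul_assoc, (hstep k).2, zero_mul]
  have htR : ∀ k m, k < m → ts k * Rs m = 0 := by
    intro k m hkm
    rw [← hmono (k + 1) m hkm, ← mul_assoc, (hstep k).2, zero_mul]
  have hsum : ∀ m, ∑ k ∈ Finset.range m, ts k + Rs m = 1 := by
    intro m
    induction m with
    | zero => rw [Finset.sum_range_zero, zero_add, hRs0]
    | succ m ih =>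
      rw [Finset.sum_range_succ, hRsS, ← ih]
      abel
  refine ⟨n + 1, fun k => if (k : ℕ) < n then ts k else Rs n, ⟨?_, ?_, ?_⟩, ?_, ?_⟩
  · intro k
    by_cases hk : (k : ℕ) < n
    · simp only [hk, if_true]
      exact (htC k).2.1
    · simp only [hk, if_false]
      exact (hRP n).2
  · intro k l hkl
    have hkl' : (k : ℕ) ≠ (l : ℕ) := fun e => hkl (Fin.ext e)
    by_cases hk : (k : ℕ) < n <;> by_cases hl : (l : ℕ) < n
    · simp only [hk, hl, if_true]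
      rcases lt_or_gt_of_ne hkl' with h | h
      · exact htt _ _ h
      · rw [hA.comm (htC k).1 (htC l).1]
        exact htt _ _ h
    · simp only [hk, hl, if_true, if_false]
      exact htR _ _ hk
    · simp only [hk, hl, if_true, if_false]
      rw [hA.comm (hRP n).1 (htC l).1]
      exact htR _ _ hl
    · exfalso
      have h1 := k.2
      have h2 := l.2
      omega
  · rw [Fin.sum_univ_castSucc]
    simp only [Fin.val_castSucc, Fin.is_lt, if_true, Fin.val_last, lt_irrefl, if_false]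
    rw [Fin.sum_univ_eq_sum_range (fun k => ts k) n]
    exact hsum n
  · intro k
    by_cases hk : (k : ℕ) < n
    · simp only [hk, if_true]
      exact (htC k).1
    · simp only [hk, if_false]
      exact (hRP n).1
  · intro k
    by_cases hk : (k : ℕ) < n
    · simp only [hk, if_true]
      exact (htC k).2.2.2
    · simp only [hk, if_false]
      exact hn

end Vale.Agent.Lib.P078
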