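import Mathlib
import Vale.Agent.Lib.P078.Abs.Basic

/-!
# P078 (abstract MASA): step approximation

Every element of a maximal abelian self-adjoint subalgebra `A` of `B(H)` is within `δ`, in
operator norm, of a step operator over a finite partition of one into projections of `A`.
-/

namespace Vale.Agent.Lib.P078

open scoped InnerProductSpace

set_option linter.unusedSectionVars false

variable {H : Type*} [NormedAddCommGroup H] [InnerProductSpace ℂ H] [CompleteSpace H]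
variable {A : Set (H →L[ℂ] H)}

/-- the real part of the form of a self-adjoint operator is symmetric -/
lemma sa_re_symm {b : H →L[ℂ] H} (hb : IsSelfAdjoint b) (x y : H) :
    (⟪b x, y⟫_ℂ).re = (⟪b y, x⟫_ℂ).re := by
  rw [sa_inner hb x y, ← inner_conj_symm, Complex.conj_re]

/-- Polarization: a self-adjoint operator whose quadratic form is at most `δ` on the range of
a projection commuting with it has norm at most `δ` there. -/
lemma norm_le_of_form_le {b D : H →L[ℂ] H} (hb : IsSelfAdjoint b)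
    (hcomm : ∀ ξ : H, D (b ξ) = b (D ξ)) (δ : ℝ) (hδ : 0 ≤ δ)
    (hform : ∀ ξ : H, D ξ = ξ → |(⟪b ξ, ξ⟫_ℂ).re| ≤ δ * ‖ξ‖ ^ 2) :
    ∀ ξ : H, D ξ = ξ → ‖b ξ‖ ≤ δ * ‖ξ‖ := by
  intro ξ hξ
  by_cases h0 : b ξ = 0
  · rw [h0, norm_zero]
    exact mul_nonneg hδ (norm_nonneg _)
  have hbpos : 0 < ‖b ξ‖ := norm_pos_iff.mpr h0
  have hξ0 : ξ ≠ 0 := by
    intro h
    apply h0
    rw [h, map_zero]
  have hξpos : 0 < ‖ξ‖ := norm_pos_iff.mpr hξ0
  set r : ℝ := ‖ξ‖ / ‖b ξ‖ with hr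
  have hrpos : 0 < r := div_pos hξpos hbpos
  set ζ : H := (r : ℂ) • b ξ with hζ
  have hDζ : D ζ = ζ := by
    rw [hζ, map_smul, hcomm, hξ]
  have hnζ : ‖ζ‖ = ‖ξ‖ := by
    rw [hζ, norm_smul, Complex.norm_real, Real.norm_eq_abs, abs_of_pos hrpos, hr]
    field_simp
  have hB : (⟪b ξ, ζ⟫_ℂ).re = ‖ξ‖ * ‖b ξ‖ := by
    rw [hζ, inner_smul_right, inner_self_eq_norm_sq_to_K]
    have : ((r : ℂ) * ((‖b ξ‖ : ℂ)) ^ 2) = ((r * ‖b ξ‖ ^ 2 : ℝ) : ℂ) := by push_cast; ring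
    simp only [Complex.coe_algebraMap]
    rw [this, Complex.ofReal_re, hr]
    field_simp
  have e1 : (⟪b (ξ + ζ), ξ + ζ⟫_ℂ).re =
      (⟪b ξ, ξ⟫_ℂ).re + 2 * (⟪b ξ, ζ⟫_ℂ).re + (⟪b ζ, ζ⟫_ℂ).re := by
    rw [map_add, inner_add_left, inner_add_right, inner_add_right]
    simp only [Complex.add_re]
    rw [sa_re_symm hb ζ ξ]
    ring
  have e2 : (⟪b (ξ - ζ), ξ - ζ⟫_ℂ).re =
      (⟪b ξ, ξ⟫_ℂ).re - 2 * (⟪b ξ, ζ⟫_ℂ).re + (⟪b ζ, ζ⟫_ℂ).re := by
    rw [map_sub, inner_sub_left, inner_sub_right, inner_sub_right]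
    simp only [Complex.sub_re]
    rw [sa_re_symm hb ζ ξ]
    ring
  have f1 := hform (ξ + ζ) (by rw [map_add, hξ, hDζ])
  have f2 := hform (ξ - ζ) (by rw [map_sub, hξ, hDζ])
  have hpar := parallelogram_law_with_norm ℂ ξ ζ
  have g1 := (abs_le.mp f1).2
  have g2 := (abs_le.mp f2).1
  rw [e1] at g1
  rw [e2] at g2
  rw [hB] at g1 g2
  have hsum : ‖ξ + ζ‖ ^ 2 + ‖ξ - ζ‖ ^ 2 = 4 * ‖ξ‖ ^ 2 := by
    rw [hnζ] at hpar
    nlinarith [hpar]
  have key : ‖ξ‖ * ‖b ξ‖ ≤ δ * ‖ξ‖ ^ 2 := by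
    have : 4 * (‖ξ‖ * ‖b ξ‖) ≤ δ * (‖ξ + ζ‖ ^ 2 + ‖ξ - ζ‖ ^ 2) := by linarith
    rw [hsum] at this
    linarith
  have key2 : ‖ξ‖ * ‖b ξ‖ ≤ ‖ξ‖ * (δ * ‖ξ‖) := by
    calc ‖ξ‖ * ‖b ξ‖ ≤ δ * ‖ξ‖ ^ 2 := key
      _ = ‖ξ‖ * (δ * ‖ξ‖) := by ring
  exact le_of_mul_le_mul_left key2 hξpos

/-- a piece of a family of orthogonal projections with sum `P` is below `P` -/
lemma piece_mul_sum {ι : Type} [Fintype ι] {D : ι → H →L[ℂ] H} {P : H →L[ℂ] H}
    (h1 : ∀ i, IsStarProjection (D i)) (h2 : ∀ i j, i ≠ j → D i * D j = 0)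
    (h3 : ∑ i, D i = P) (i : ι) : D i * P = D i ∧ P * D i = D i := by
  classical
  constructor
  · rw [← h3, Finset.mul_sum, Finset.sum_eq_single i]
    · exact (h1 i).isIdempotentElem
    · intro j _ hj
      exact h2 i j (Ne.symm hj)
    · intro h; exact absurd (Finset.mem_univ i) h
  · rw [← h3, Finset.sum_mul, Finset.sum_eq_single i]
    · exact (h1 i).isIdempotentElem
    · intro j _ hj
      exact h2 j i hj
    · intro h; exact absurd (Finset.mem_univ i) h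

/-- Bisection: refine a projection `P` of `A` into pieces on which the quadratic form of the
self-adjoint `a` oscillates by at most `(M - m) / 2 ^ n`. -/
lemma IsMasa.bisect (hA : IsMasa A) {a : H →L[ℂ] H} (haA : a ∈ A) (ha : IsSelfAdjoint a)
    (n : ℕ) :
    ∀ (P : H →L[ℂ] H) (m M : ℝ), P ∈ A → IsStarProjection P →
      (∀ η : H, P η = η →
        m * ‖η‖ ^ 2 ≤ (⟪a η, η⟫_ℂ).re ∧ (⟪a η, η⟫_ℂ).re ≤ M * ‖η‖ ^ 2) →
      ∃ (ι : Type) (_ : Fintype ι) (D : ι → H →L[ℂ] H) (c : ι → ℝ),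
        (∀ i, IsStarProjection (D i)) ∧ (∀ i j, i ≠ j → D i * D j = 0) ∧ ∑ i, D i = P ∧
        (∀ i, D i ∈ A) ∧
        ∀ i (η : H), D i η = η →
          |(⟪a η, η⟫_ℂ).re - c i * ‖η‖ ^ 2| ≤ (M - m) / 2 ^ n * ‖η‖ ^ 2 := by
  induction n with
  | zero =>
    intro P m M hPA hP hb
    refine ⟨Unit, inferInstance, fun _ => P, fun _ => m, fun _ => hP, ?_, ?_, fun _ => hPA, ?_⟩
    · intro i j hij
      exact absurd (Subsingleton.elim i j) hij
    · simp
    · intro _ η hη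
      obtain ⟨h1, h2⟩ := hb η hη
      rw [abs_of_nonneg (by linarith)]
      simp only [pow_zero, div_one]
      linarith
  | succ n ih =>
    intro P m M hPA hP hb
    obtain ⟨E, hEA, hE, hE1, hE2⟩ := hA.exists_cut haA ha ((m + M) / 2)
    have hPE : P * E = E * P := hA.comm hPA hEA
    have hQA : (1 - E) ∈ A := hA.sub_mem hA.one_mem hEA
    have hQ : IsStarProjection (1 - E) := hE.one_sub
    have hPQ : P * (1 - E) = (1 - E) * P := hA.comm hPA hQA
    have hP1A : P * E ∈ A := hA.mul_mem hPA hEA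
    have hP2A : P * (1 - E) ∈ A := hA.mul_mem hPA hQA
    have hP1 : IsStarProjection (P * E) := hP.mul hE hPE
    have hP2 : IsStarProjection (P * (1 - E)) := hP.mul hQ hPQ
    have hPid : ∀ u : H, P (P u) = P u := by
      intro u
      have h2 := congrArg (fun T : H →L[ℂ] H => T u) hP.isIdempotentElem
      simpa using h2
    have hEid : ∀ u : H, E (E u) = E u := by
      intro u
      have h2 := congrArg (fun T : H →L[ℂ] H => T u) hE.isIdempotentElem
      simpa using h2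
    have hQid : ∀ u : H, (1 - E) ((1 - E) u) = (1 - E) u := by
      intro u
      have h2 := congrArg (fun T : H →L[ℂ] H => T u) hQ.isIdempotentElem
      simpa using h2
    -- bounds on the two halves
    have hb1 : ∀ η : H, (P * E) η = η →
        m * ‖η‖ ^ 2 ≤ (⟪a η, η⟫_ℂ).re ∧ (⟪a η, η⟫_ℂ).re ≤ (m + M) / 2 * ‖η‖ ^ 2 := by
      intro η hη
      rw [mul_apply_eq_comp] at hη
      have hPη : P η = η := by
        calc P η = P (P (E η)) := by rw [hη]
          _ = P (E η) := hPid _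
          _ = η := hη
      have hEη : E η = η := by
        calc E η = E (P (E η)) := by rw [hη]
          _ = P (E (E η)) := hA.comm_apply hEA hPA _
          _ = P (E η) := by rw [hEid]
          _ = η := hη
      exact ⟨(hb η hPη).1, hE1 η hEη⟩
    have hb2 : ∀ η : H, (P * (1 - E)) η = η →
        (m + M) / 2 * ‖η‖ ^ 2 ≤ (⟪a η, η⟫_ℂ).re ∧ (⟪a η, η⟫_ℂ).re ≤ M * ‖η‖ ^ 2 := by
      intro η hη
      rw [mul_apply_eq_comp] at hη
      have hPη : P η = η := by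
        calc P η = P (P ((1 - E) η)) := by rw [hη]
          _ = P ((1 - E) η) := hPid _
          _ = η := hη
      have hQη : (1 - E) η = η := by
        calc (1 - E) η = (1 - E) (P ((1 - E) η)) := by rw [hη]
          _ = P ((1 - E) ((1 - E) η)) := hA.comm_apply hQA hPA _
          _ = P ((1 - E) η) := by rw [hQid]
          _ = η := hη
      have hEη : E η = 0 := by
        rw [_root_.sub_apply, one_apply_eq_self] at hQη
        have : η - E η = η - 0 := by rw [hQη, sub_zero]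
        exact sub_right_injective this
      exact ⟨hE2 η hEη, (hb η hPη).2⟩
    obtain ⟨ι1, hι1, D1, c1, a1, a2, a3, a4, a5⟩ := ih (P * E) m ((m + M) / 2) hP1A hP1 hb1
    obtain ⟨ι2, hι2, D2, c2, b1, b2, b3, b4, b5⟩ :=
      ih (P * (1 - E)) ((m + M) / 2) M hP2A hP2 hb2
    have h12 : P * E * (P * (1 - E)) = 0 := by
      rw [mul_assoc, ← mul_assoc E P, ← hPE, mul_assoc P E, hE.mul_one_sub_self, mul_zero,
        mul_zero]
    have h21 : P * (1 - E) * (P * E) = 0 := by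
      rw [mul_assoc, ← mul_assoc (1 - E) P, ← hPQ, mul_assoc P (1 - E), hE.one_sub_mul_self,
        mul_zero, mul_zero]
    refine ⟨ι1 ⊕ ι2, inferInstance, Sum.elim D1 D2, Sum.elim c1 c2, ?_, ?_, ?_, ?_, ?_⟩
    · rintro (i | i)
      · exact a1 i
      · exact b1 i
    · rintro (i | i) (j | j) hij
      · exact a2 i j (fun h => hij (by rw [h]))
      · show D1 i * D2 j = 0
        rw [← (piece_mul_sum a1 a2 a3 i).1, ← (piece_mul_sum b1 b2 b3 j).2, mul_assoc,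
          ← mul_assoc (P * E), h12, zero_mul, mul_zero]
      · show D2 i * D1 j = 0
        rw [← (piece_mul_sum b1 b2 b3 i).1, ← (piece_mul_sum a1 a2 a3 j).2, mul_assoc,
          ← mul_assoc (P * (1 - E)), h21, zero_mul, mul_zero]
      · exact b2 i j (fun h => hij (by rw [h]))
    · rw [Fintype.sum_sum_type]
      simp only [Sum.elim_inl, Sum.elim_inr]
      rw [a3, b3, ← mul_add, add_sub_cancel, mul_one]
    · rintro (i | i)
      · exact a4 i
      · exact b4 i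
    · have e1 : (M - m) / 2 ^ (n + 1) = ((m + M) / 2 - m) / 2 ^ n := by
        rw [pow_succ]; field_simp; ring
      have e2 : (M - m) / 2 ^ (n + 1) = (M - (m + M) / 2) / 2 ^ n := by
        rw [pow_succ]; field_simp; ring
      rintro (i | i) η hη
      · rw [e1]
        exact a5 i η hη
      · rw [e2]
        exact b5 i η hη

/-- the quadratic form of `a - c` -/
lemma form_sub_smul (a : H →L[ℂ] H) (c : ℝ) (η : H) :
    (⟪(a - (c : ℂ) • (1 : H →L[ℂ] H)) η, η⟫_ℂ).re = (⟪a η, η⟫_ℂ).re - c * ‖η‖ ^ 2 := by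
  rw [_root_.sub_apply, _root_.smul_apply, one_apply_eq_self, inner_sub_left, inner_smul_left,
    Complex.sub_re, Complex.conj_ofReal, inner_self_eq_norm_sq_to_K]
  congr 1
  have : ((c : ℂ) * ((‖η‖ : ℂ)) ^ 2) = ((c * ‖η‖ ^ 2 : ℝ) : ℂ) := by push_cast; ring
  simp only [Complex.coe_algebraMap]
  rw [this, Complex.ofReal_re]

/-- Step approximation of a self-adjoint element, with real coefficients. -/
lemma IsMasa.exists_step_sa (hA : IsMasa A) {a : H →L[ℂ] H} (haA : a ∈ A)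
    (ha : IsSelfAdjoint a) (δ : ℝ) (hδ : 0 < δ) :
    ∃ (ι : Type) (_ : Fintype ι) (D : ι → H →L[ℂ] H) (c : ι → ℝ),
      OrthoFam D ∧ (∀ i, D i ∈ A) ∧ ∀ η : H, ‖a η - ∑ i, (c i : ℂ) • D i η‖ ≤ δ * ‖η‖ := by
  classical
  have hbound : ∀ η : H, |(⟪a η, η⟫_ℂ).re| ≤ ‖a‖ * ‖η‖ ^ 2 := by
    intro η
    calc |(⟪a η, η⟫_ℂ).re| ≤ ‖⟪a η, η⟫_ℂ‖ := Complex.abs_re_le_norm _
      _ ≤ ‖a η‖ * ‖η‖ := norm_inner_le_norm _ _
      _ ≤ (‖a‖ * ‖η‖) * ‖η‖ := mul_le_mul_of_nonneg_right (a.le_opNorm η) (norm_nonneg _)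
      _ = ‖a‖ * ‖η‖ ^ 2 := by ring
  obtain ⟨n, hn⟩ : ∃ n : ℕ, (‖a‖ - -‖a‖) / 2 ^ n ≤ δ := by
    obtain ⟨n, hn⟩ := pow_unbounded_of_one_lt ((‖a‖ - -‖a‖) / δ) (one_lt_two : (1 : ℝ) < 2)
    refine ⟨n, ?_⟩
    rw [div_le_iff₀ (by positivity)]
    rw [div_lt_iff₀ hδ] at hn
    linarith
  obtain ⟨ι, hι, D, c, d1, d2, d3, d4, d5⟩ :=
    hA.bisect haA ha n 1 (-‖a‖) ‖a‖ hA.one_mem (IsStarProjection.one _)
      (fun η _ => by
        have h := abs_le.mp (hbound η)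
        constructor
        · linarith [h.1]
        · exact h.2)
  have hD : OrthoFam D := ⟨d1, d2, d3⟩
  refine ⟨ι, hι, D, c, hD, d4, ?_⟩
  have hpiece : ∀ i (ξ : H), D i ξ = ξ →
      ‖(a - (c i : ℂ) • (1 : H →L[ℂ] H)) ξ‖ ≤ δ * ‖ξ‖ := by
    intro i
    have hbi : IsSelfAdjoint (a - (c i : ℂ) • (1 : H →L[ℂ] H)) :=
      ha.sub (IsSelfAdjoint.smul (isSelfAdjoint_iff.mpr (Complex.conj_ofReal _))
        (IsSelfAdjoint.one _))
    have hbiA : (a - (c i : ℂ) • (1 : H →L[ℂ] H)) ∈ A :=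
      hA.sub_mem haA (hA.smul_mem _ hA.one_mem)
    apply norm_le_of_form_le hbi (fun ξ => hA.comm_apply (d4 i) hbiA ξ) δ hδ.le
    intro ξ hξ
    rw [form_sub_smul]
    calc |(⟪a ξ, ξ⟫_ℂ).re - c i * ‖ξ‖ ^ 2| ≤ (‖a‖ - -‖a‖) / 2 ^ n * ‖ξ‖ ^ 2 := d5 i ξ hξ
      _ ≤ δ * ‖ξ‖ ^ 2 := mul_le_mul_of_nonneg_right hn (by positivity)
  intro η
  set w : H := a η - ∑ i, (c i : ℂ) • D i η with hw
  have hDw : ∀ j, D j w = (a - (c j : ℂ) • (1 : H →L[ℂ] H)) (D j η) := by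
    intro j
    rw [hw, map_sub, map_sum, hA.comm_apply (d4 j) haA η, Finset.sum_eq_single j]
    · rw [map_smul, hD.idem, _root_.sub_apply, _root_.smul_apply, one_apply_eq_self]
    · intro i _ hij
      rw [map_smul, hD.apply_apply_of_ne (Ne.symm hij), smul_zero]
    · intro h; exact absurd (Finset.mem_univ j) h
  have h1 : ‖w‖ ^ 2 ≤ (δ * ‖η‖) ^ 2 := by
    rw [hD.norm_sq_eq_sum w, mul_pow, hD.norm_sq_eq_sum η, Finset.mul_sum]
    refine Finset.sum_le_sum (fun j _ => ?_)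
    rw [hDw j, ← mul_pow]
    exact pow_le_pow_left₀ (norm_nonneg _) (hpiece j (D j η) (hD.idem j η)) 2
  exact le_of_sq_le_sq h1 (by positivity)

theorem IsMasa.exists_step (hA : IsMasa A) {T : H →L[ℂ] H} (hT : T ∈ A) (δ : ℝ) (hδ : 0 < δ) :
    ∃ (ι : Type) (_ : Fintype ι) (D : ι → H →L[ℂ] H) (c : ι → ℂ),
      OrthoFam D ∧ (∀ i, D i ∈ A) ∧ ∀ η : H, ‖T η - ∑ i, c i • D i η‖ ≤ δ * ‖η‖ := by
  classical
  set a : H →L[ℂ] H := (1 / 2 : ℂ) • (T + star T) with ha_def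
  set b : H →L[ℂ] H := (-Complex.I / 2 : ℂ) • (T - star T) with hb_def
  have hsT : star T ∈ A := hA.star_mem hT
  have haA : a ∈ A := hA.smul_mem _ (hA.add_mem hT hsT)
  have hbA : b ∈ A := hA.smul_mem _ (hA.sub_mem hT hsT)
  have ha : IsSelfAdjoint a := by
    rw [isSelfAdjoint_iff, ha_def, star_smul, star_add, star_star, add_comm]
    congr 1
    simp
  have hb : IsSelfAdjoint b := by
    rw [isSelfAdjoint_iff, hb_def, star_smul, star_sub, star_star]
    have h1 : star (-Complex.I / 2 : ℂ) = Complex.I / 2 := by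
      simp
    rw [h1, ← neg_sub T (star T), smul_neg, ← neg_smul]
    congr 1
    ring
  have hTab : ∀ η, T η = a η + Complex.I • b η := by
    intro η
    have h2 : T = a + Complex.I • b := by
      rw [ha_def, hb_def, smul_smul]
      have h : Complex.I * (-Complex.I / 2) = 1 / 2 := by
        rw [mul_div_assoc', mul_neg, Complex.I_mul_I]; norm_num
      rw [h, ← smul_add, add_add_sub_cancel, ← two_smul ℂ T, smul_smul]
      norm_num
    have h3 : (a + Complex.I • b) η = a η + Complex.I • b η := rfl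
    rw [← h3, ← h2]
  obtain ⟨ι, hι, D, c, hD, hDA, hDapp⟩ := hA.exists_step_sa haA ha (δ / 2) (by positivity)
  obtain ⟨ι', hι', D', c', hD', hD'A, hD'app⟩ :=
    hA.exists_step_sa hbA hb (δ / 2) (by positivity)
  refine ⟨ι × ι', inferInstance, fun p => D p.1 * D' p.2,
    fun p => (c p.1 : ℂ) + Complex.I * (c' p.2 : ℂ), ?_, ?_, ?_⟩
  · refine ⟨fun p => (hD.1 p.1).mul (hD'.1 p.2) (hA.comm (hDA p.1) (hD'A p.2)), ?_, ?_⟩
    · rintro ⟨i, j⟩ ⟨i', j'⟩ hne
      show D i * D' j * (D i' * D' j') = 0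
      have hc : D' j * D i' = D i' * D' j := hA.comm (hD'A j) (hDA i')
      rw [mul_assoc, ← mul_assoc (D' j), hc, mul_assoc, ← mul_assoc (D i)]
      by_cases hi : i = i'
      · have hj : j ≠ j' := fun h => hne (by rw [hi, h])
        rw [hD'.2.1 j j' hj, mul_zero]
      · rw [hD.2.1 i i' hi, zero_mul]
    · rw [Fintype.sum_prod_type]
      simp only [← Finset.mul_sum, hD'.2.2, mul_one]
      exact hD.2.2
  · exact fun p => hA.mul_mem (hDA p.1) (hD'A p.2)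
  · intro η
    have hsum : ∑ p : ι × ι', ((c p.1 : ℂ) + Complex.I * (c' p.2 : ℂ)) • (D p.1 * D' p.2) η
        = ∑ i, (c i : ℂ) • D i η + Complex.I • ∑ j, (c' j : ℂ) • D' j η := by
      rw [Fintype.sum_prod_type]
      simp only [add_smul, Finset.sum_add_distrib, mul_apply_eq_comp]
      congr 1
      · refine Finset.sum_congr rfl (fun i _ => ?_)
        rw [← Finset.smul_sum, ← map_sum, hD'.sum_apply]
      · rw [Finset.sum_comm, Finset.smul_sum]
        refine Finset.sum_congr rfl (fun j _ => ?_)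
        rw [← Finset.smul_sum, ← _root_.sum_apply, hD.2.2, one_apply_eq_self, mul_smul]
    show ‖T η - ∑ p : ι × ι', ((c p.1 : ℂ) + Complex.I * (c' p.2 : ℂ)) • (D p.1 * D' p.2) η‖
      ≤ δ * ‖η‖
    rw [hsum, hTab η]
    have e : a η + Complex.I • b η -
        (∑ i, (c i : ℂ) • D i η + Complex.I • ∑ j, (c' j : ℂ) • D' j η)
        = (a η - ∑ i, (c i : ℂ) • D i η) + Complex.I • (b η - ∑ j, (c' j : ℂ) • D' j η) := by
      rw [smul_sub]; abel
    rw [e]
    calc ‖(a η - ∑ i, (c i : ℂ) • D i η) + Complex.I • (b η - ∑ j, (c' j : ℂ) • D' j η)‖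
        ≤ ‖a η - ∑ i, (c i : ℂ) • D i η‖ + ‖Complex.I • (b η - ∑ j, (c' j : ℂ) • D' j η)‖ :=
          norm_add_le _ _
      _ ≤ δ / 2 * ‖η‖ + δ / 2 * ‖η‖ := by
          rw [norm_smul, Complex.norm_I, one_mul]
          exact add_le_add (hDapp η) (hD'app η)
      _ = δ * ‖η‖ := by ring

end Vale.Agent.Lib.P078
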