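import Mathlib
import Vale.Agent.Lib.P078.Defs
import Vale.Agent.Lib.P078.Proj
import Vale.Agent.Lib.P078.Upper
import Vale.Agent.Lib.P078.UpperConcrete
import Vale.Agent.Lib.P078.Exact
import Vale.Agent.Lib.P078.ExactConcrete
import Vale.Agent.Lib.P078.Generic
import Vale.Agent.Lib.P078.Gap
import Vale.Agent.Lib.P078.Abs.Basic
import Vale.Agent.Lib.P078.Abs.Step
import Vale.Agent.Lib.P078.Abs.Small
import Vale.Agent.Lib.P078.Abs.Cyclic
import Vale.Agent.Lib.P078.Abs.Simple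

/-!
# P078 (abstract MASA): the exact upper bound

For a maximal abelian self-adjoint subalgebra `A` of `B(H)` without minimal projections, every
self-adjoint operator is `(1/r, r)` so-pavable over `A`, for every `r ≥ 1`.
-/

namespace Vale.Agent.Lib.P078

open scoped InnerProductSpace

set_option linter.unusedSectionVars false

variable {H : Type*} [NormedAddCommGroup H] [InnerProductSpace ℂ H] [CompleteSpace H]
variable {A : Set (H →L[ℂ] H)}

/-- finitely many vectors are approximated by step multiples of one nonzero vector -/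
theorem IsMasa.exists_step_approx [Nontrivial H] (hA : IsMasa A) (F : Finset H) :
    ∃ ζ : H, ζ ≠ 0 ∧ ∀ ξ ∈ F, ∀ δ : ℝ, 0 < δ → ∃ s ∈ stepSub hA ζ, ‖ξ - s‖ < δ := by
  obtain ⟨ζ, hζ, hcyc⟩ := hA.exists_cyclic F
  refine ⟨ζ, hζ, fun ξ hξ δ hδ => ?_⟩
  obtain ⟨T, hT, hTξ⟩ := hcyc ξ hξ (δ / 2) (half_pos hδ)
  have hpos : 0 < δ / (2 * (‖ζ‖ + 1)) := by positivity
  obtain ⟨ι, hι, D, c, hD, hDA, hstep⟩ := hA.exists_step hT _ hpos
  refine ⟨∑ i, c i • D i ζ, hA.step_mem ζ hD hDA c, ?_⟩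
  have h1 := hstep ζ
  have h2 : δ / (2 * (‖ζ‖ + 1)) * ‖ζ‖ < δ / 2 := by
    have hz : 0 ≤ ‖ζ‖ := norm_nonneg ζ
    rw [div_mul_eq_mul_div, div_lt_iff₀ (by positivity)]
    nlinarith
  calc ‖ξ - ∑ i, c i • D i ζ‖ = ‖(ξ - T ζ) + (T ζ - ∑ i, c i • D i ζ)‖ := by congr 1; abel
    _ ≤ ‖ξ - T ζ‖ + ‖T ζ - ∑ i, c i • D i ζ‖ := norm_add_le _ _
    _ < δ / 2 + δ / 2 := by linarith
    _ = δ := add_halves δ

/-- the normalisation of a vector -/
noncomputable def unitVec (u : H) : H := ((‖u‖⁻¹ : ℝ) : ℂ) • u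

lemma unitVec_zero_or_norm (u : H) : unitVec u = 0 ∨ ‖unitVec u‖ = 1 := by
  by_cases hu : u = 0
  · left; rw [hu]; simp [unitVec]
  · right
    have hpos : 0 < ‖u‖ := norm_pos_iff.mpr hu
    unfold unitVec
    rw [norm_smul, Complex.norm_real, Real.norm_eq_abs, abs_of_nonneg (inv_nonneg.mpr hpos.le),
      inv_mul_cancel₀ hpos.ne']

lemma smul_unitVec (u : H) : ((‖u‖ : ℝ) : ℂ) • unitVec u = u := by
  by_cases hu : u = 0
  · rw [hu]; simp [unitVec]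
  · have hpos : 0 < ‖u‖ := norm_pos_iff.mpr hu
    unfold unitVec
    rw [smul_smul, ← Complex.ofReal_mul, mul_inv_cancel₀ hpos.ne', Complex.ofReal_one, one_smul]

/-- the exact bound for one finite set and one tolerance, when `‖x‖ - x` has infinite rank on the
step multiples of the chosen vector -/
theorem IsMasa.exists_paving_aux (hA : IsMasa A) (hmin : NoMinProj A)
    (x : H →L[ℂ] H) (hx : IsSelfAdjoint x) (hx0 : x ≠ 0) (r : ℕ) (hr : 0 < r)
    (F : Finset H) (δ : ℝ) (hδ : 0 < δ) (ζ : H)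
    (happ : ∀ ξ ∈ F, ∃ s ∈ stepSub hA ζ, ‖ξ - s‖ < δ / 2)
    (hy : ¬ FiniteDimensional ℂ ((stepSub hA ζ).map
      (((‖x‖ : ℂ) • (1 : H →L[ℂ] H) - x : H →L[ℂ] H) : H →ₗ[ℂ] H))) :
    ∃ (p : Fin r → H →L[ℂ] H) (a q : H →L[ℂ] H),
      IsPartition A p ∧ a ∈ A ∧ IsSelfAdjoint a ∧ ‖a‖ ≤ ‖x‖ ∧ IsStarProjection q ∧
        (∀ ξ ∈ F, ‖(1 - q) ξ‖ < δ) ∧ ‖q * (pinching p x - a) * q‖ ≤ 1 / (r : ℝ) * ‖x‖ := by
  classical
  have hrR : (0 : ℝ) < r := Nat.cast_pos.mpr hr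
  -- approximate the vectors of `F` by step vectors
  have hex : ∀ ξ : H, ∃ s ∈ stepSub hA ζ, ξ ∈ F → ‖ξ - s‖ < δ / 2 := by
    intro ξ
    by_cases hξ : ξ ∈ F
    · obtain ⟨s, hs, hlt⟩ := happ ξ hξ
      exact ⟨s, hs, fun _ => hlt⟩
    · exact ⟨0, Submodule.zero_mem _, fun h => absurd h hξ⟩
  choose sf hsfS hsf using hex
  -- move them into generic position
  obtain ⟨φ, hφS, hφψ, hφli⟩ := exists_generic (stepSub hA ζ) _ hy F.card
    (fun l => sf (F.equivFin.symm l : H)) (fun l => hsfS _) (δ / 2) (half_pos hδ)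
  obtain ⟨K, hKfin, B, hB, hBA, hBF⟩ := hA.exists_cells ζ φ hφS
  -- the span of the moved vectors
  have hVfin : FiniteDimensional ℂ (Submodule.span ℂ (Set.range φ)) :=
    FiniteDimensional.span_of_finite ℂ (Set.finite_range φ)
  have hV : ∀ u ∈ Submodule.span ℂ (Set.range φ), x u = (‖x‖ : ℂ) • u → u = 0 := by
    intro u hu hxu
    obtain ⟨α, rfl⟩ := (Submodule.mem_span_range_iff_exists_fun ℂ).mp hu
    have h0 : ∑ l, α l • ((‖x‖ : ℂ) • (1 : H →L[ℂ] H) - x) (φ l) = 0 := by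
      have h1 : ((‖x‖ : ℂ) • (1 : H →L[ℂ] H) - x) (∑ l, α l • φ l) = 0 := by
        rw [_root_.sub_apply, _root_.smul_apply, one_apply_eq_self, hxu, sub_self]
      rw [map_sum] at h1
      simpa only [map_smul] using h1
    have h2 := Fintype.linearIndependent_iff.mp hφli α h0
    simp [h2]
  obtain ⟨t, ht0, htx, hgap⟩ := exists_gap x hx hx0 (Submodule.span ℂ (Set.range φ)) hV
  -- fineness of the cells
  have hηpos : 0 < t ^ 2 / (2 * ((Fintype.card K : ℝ) ^ 2 + 1) * (r : ℝ) * (‖x‖ ^ 2 + 1)) := by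
    positivity
  obtain ⟨m, hmpos, hm⟩ := exists_pos_lower (fun ρ => ‖B ρ ζ‖ ^ 2) (fun ρ => sq_nonneg _)
  obtain ⟨N, I, hI, hIA, hIη⟩ := hA.exists_small_partition hmin ζ _ (mul_pos hηpos hmpos)
  have he : OrthoFam (fun i : K × Fin N => B i.1 * I i.2) := hA.orthoFam_mul hB hI hBA hIA
  have heA : ∀ i : K × Fin N, B i.1 * I i.2 ∈ A := fun i => hA.mul_mem (hBA i.1) (hIA i.2)
  have hv : ∀ ρ, unitVec (B ρ ζ) = 0 ∨ ‖unitVec (B ρ ζ)‖ = 1 := fun ρ => unitVec_zero_or_norm _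
  have hBB : ∀ ρ ρ' : K, ρ ≠ ρ' → ∀ u : H, B ρ (B ρ' u) = 0 := by
    intro ρ ρ' hne u
    have := congrArg (fun T : H →L[ℂ] H => T u) (hB.2.1 ρ ρ' hne)
    simpa using this
  have hJ : ∀ (i : K × Fin N) (ρ : K), i.1 ≠ ρ → (B i.1 * I i.2) (unitVec (B ρ ζ)) = 0 := by
    intro i ρ hne
    unfold unitVec
    rw [map_smul, mul_apply_eq_comp, hA.comm_apply (hIA i.2) (hBA ρ), hBB i.1 ρ hne, smul_zero]
  have hηb : ∀ (i : K × Fin N) (ρ : K), ‖(B i.1 * I i.2) (unitVec (B ρ ζ))‖ ^ 2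
      ≤ t ^ 2 / (2 * ((Fintype.card K : ℝ) ^ 2 + 1) * (r : ℝ) * (‖x‖ ^ 2 + 1)) := by
    intro i ρ
    rcases hm ρ with h0 | hmρ
    · have h0' : B ρ ζ = 0 := by
        have : ‖B ρ ζ‖ = 0 := by
          have h0'' : ‖B ρ ζ‖ ^ 2 = 0 := h0
          exact pow_eq_zero_iff (two_ne_zero) |>.mp h0''
        exact norm_eq_zero.mp this
      rw [h0']
      simp only [unitVec, norm_zero, inv_zero, Complex.ofReal_zero, zero_smul, map_zero]
      simpa using hηpos.le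
    · have hpos : 0 < ‖B ρ ζ‖ ^ 2 := lt_of_lt_of_le hmpos hmρ
      have hnpos : 0 < ‖B ρ ζ‖ := by
        by_contra hcon
        have : ‖B ρ ζ‖ = 0 := le_antisymm (not_lt.mp hcon) (norm_nonneg _)
        rw [this] at hpos
        simp at hpos
      have h1 : ‖(B i.1 * I i.2) (unitVec (B ρ ζ))‖ ≤ ‖B ρ ζ‖⁻¹ * ‖I i.2 ζ‖ := by
        unfold unitVec
        rw [map_smul, norm_smul, Complex.norm_real, Real.norm_eq_abs,
          abs_of_nonneg (inv_nonneg.mpr hnpos.le)]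
        apply mul_le_mul_of_nonneg_left _ (inv_nonneg.mpr hnpos.le)
        rw [mul_apply_eq_comp, hA.comm_apply (hIA i.2) (hBA ρ)]
        calc ‖B i.1 (B ρ (I i.2 ζ))‖ ≤ ‖B ρ (I i.2 ζ)‖ := proj_norm_le (hB.1 i.1) _
          _ ≤ ‖I i.2 ζ‖ := proj_norm_le (hB.1 ρ) _
      have h2 : ‖(B i.1 * I i.2) (unitVec (B ρ ζ))‖ ^ 2 ≤ (‖B ρ ζ‖⁻¹ * ‖I i.2 ζ‖) ^ 2 :=
        pow_le_pow_left₀ (norm_nonneg _) h1 2
      refine h2.trans ?_
      rw [mul_pow, inv_pow, inv_mul_le_iff₀ hpos]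
      calc ‖I i.2 ζ‖ ^ 2 ≤ _ * m := hIη i.2
        _ ≤ _ * ‖B ρ ζ‖ ^ 2 := mul_le_mul_of_nonneg_left hmρ hηpos.le
        _ = ‖B ρ ζ‖ ^ 2 * _ := mul_comm _ _
  have hvo := ortho_of_supp (J := fun i : K × Fin N => i.1) he hJ
  -- the projection onto the span lies below the span projection of the cells
  have hfixφ : ∀ l, spanProj (fun ρ => unitVec (B ρ ζ)) (φ l) = φ l := by
    intro l
    have h1 : φ l = ∑ ρ, B ρ (φ l) := (hB.sum_apply (φ l)).symm
    have h2 : ∀ ρ, spanProj (fun ρ => unitVec (B ρ ζ)) (B ρ (φ l)) = B ρ (φ l) := by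
      intro ρ
      obtain ⟨c, hc⟩ := hBF l ρ
      rw [hc, map_smul]
      congr 1
      conv_lhs => rw [← smul_unitVec (B ρ ζ)]
      rw [map_smul, spanProj_apply_self hvo hv ρ, smul_unitVec]
    conv_lhs => rw [h1]
    rw [map_sum]
    conv_rhs => rw [h1]
    exact Finset.sum_congr rfl (fun ρ _ => h2 ρ)
  have hfix : Submodule.span ℂ (Set.range φ)
      ≤ LinearMap.eqLocus ((spanProj (fun ρ => unitVec (B ρ ζ)) : H →L[ℂ] H) : H →ₗ[ℂ] H)
          LinearMap.id := by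
    apply Submodule.span_le.mpr
    rintro _ ⟨l, rfl⟩
    exact hfixφ l
  have hQ : IsStarProjection (Submodule.span ℂ (Set.range φ)).starProjection :=
    isStarProjection_starProjection
  have hQv : spanProj (fun ρ => unitVec (B ρ ζ)) * (Submodule.span ℂ (Set.range φ)).starProjection
      = (Submodule.span ℂ (Set.range φ)).starProjection := by
    apply ContinuousLinearMap.ext
    intro u
    rw [mul_apply_eq_comp]
    exact hfix (Submodule.starProjection_apply_mem _ u)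
  have hηt : 2 * (t ^ 2 / (2 * ((Fintype.card K : ℝ) ^ 2 + 1) * (r : ℝ) * (‖x‖ ^ 2 + 1)))
      * (Fintype.card K : ℝ) ^ 2 * (r : ℝ) * ‖x‖ ^ 2 ≤ t ^ 2 := by
    have hD : 0 < 2 * ((Fintype.card K : ℝ) ^ 2 + 1) * (r : ℝ) * (‖x‖ ^ 2 + 1) := by positivity
    have h1 : 2 * (t ^ 2 / (2 * ((Fintype.card K : ℝ) ^ 2 + 1) * (r : ℝ) * (‖x‖ ^ 2 + 1)))
        * (Fintype.card K : ℝ) ^ 2 * (r : ℝ) * ‖x‖ ^ 2
        = t ^ 2 * (2 * (Fintype.card K : ℝ) ^ 2 * (r : ℝ) * ‖x‖ ^ 2)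
          / (2 * ((Fintype.card K : ℝ) ^ 2 + 1) * (r : ℝ) * (‖x‖ ^ 2 + 1)) := by
      field_simp
    rw [h1, div_le_iff₀ hD]
    apply mul_le_mul_of_nonneg_left _ (sq_nonneg t)
    have hd : (0 : ℝ) ≤ (Fintype.card K : ℝ) ^ 2 := sq_nonneg _
    have hxx : (0 : ℝ) ≤ ‖x‖ ^ 2 := sq_nonneg _
    nlinarith [mul_nonneg hd hrR.le, mul_nonneg (mul_nonneg hd hrR.le) hxx,
      mul_nonneg hrR.le hxx, hrR.le]
  obtain ⟨p, a, hp, haA, hasa, hanorm, hmain⟩ :=
    exists_paving_exact (A := A) (J := fun i : K × Fin N => i.1) hA.zero_mem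
      (fun S T hS hT => hA.add_mem hS hT) (fun s T hT => hA.smul_mem _ hT) hA.one_mem he heA hv hJ
      _ hηpos.le hηb x hx r hr
      (Submodule.span ℂ (Set.range φ)).starProjection hQ hQv t ht0.le htx hgap hηt
  refine ⟨p, a, (Submodule.span ℂ (Set.range φ)).starProjection, hp, haA, hasa, hanorm, hQ, ?_,
    hmain⟩
  intro ξ hξ
  have hen : (F.equivFin.symm (F.equivFin ⟨ξ, hξ⟩) : H) = ξ := by
    rw [Equiv.symm_apply_apply]
  have h1 := hφψ (F.equivFin ⟨ξ, hξ⟩)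
  rw [hen] at h1
  have h2 : ‖ξ - φ (F.equivFin ⟨ξ, hξ⟩)‖ < δ := by
    calc ‖ξ - φ (F.equivFin ⟨ξ, hξ⟩)‖
        = ‖(ξ - sf ξ) - (φ (F.equivFin ⟨ξ, hξ⟩) - sf ξ)‖ := by congr 1; abel
      _ ≤ ‖ξ - sf ξ‖ + ‖φ (F.equivFin ⟨ξ, hξ⟩) - sf ξ‖ := norm_sub_le _ _
      _ < δ / 2 + δ / 2 := add_lt_add (hsf ξ hξ) h1
      _ = δ := add_halves δ
  have hQφ : (Submodule.span ℂ (Set.range φ)).starProjection (φ (F.equivFin ⟨ξ, hξ⟩))
      = φ (F.equivFin ⟨ξ, hξ⟩) :=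
    Submodule.starProjection_eq_self_iff.mpr (Submodule.subset_span ⟨_, rfl⟩)
  have h3 : (1 - (Submodule.span ℂ (Set.range φ)).starProjection) ξ
      = (1 - (Submodule.span ℂ (Set.range φ)).starProjection)
          (ξ - φ (F.equivFin ⟨ξ, hξ⟩)) := by
    simp only [_root_.sub_apply, one_apply_eq_self, map_sub, hQφ]
    abel
  rw [h3]
  exact lt_of_le_of_lt (proj_norm_le hQ.one_sub _) h2

/-- **Exact upper bound.**  In a MASA of `B(H)` without minimal projections, every self-adjoint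
operator is `(1/r, r)` so-pavable. -/
theorem IsMasa.soPavable_exact [Nontrivial H] (hA : IsMasa A) (hmin : NoMinProj A)
    (x : H →L[ℂ] H) (hx : IsSelfAdjoint x) (r : ℕ) (hr : 0 < r) :
    SoPavable Set.univ A x (1 / (r : ℝ)) r := by
  by_cases hx0 : x = 0
  · subst hx0
    exact soPavable_zero _ _ hA.zero_mem hA.one_mem (Set.mem_univ _) _ r hr
  intro F δ hδ
  obtain ⟨ζ, hζ, happ⟩ := hA.exists_step_approx F
  have hinf : ¬ FiniteDimensional ℂ (stepSub hA ζ) :=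
    hA.stepSub_infinite ζ hζ (fun η hη => hA.exists_small_partition hmin ζ η hη)
  rcases infinite_rank_dichotomy (stepSub hA ζ) hinf x hx0 with h | h
  · obtain ⟨p, a, q, hp, haA, hasa, hanorm, hq, hF, hmain⟩ :=
      hA.exists_paving_aux hmin x hx hx0 r hr F δ hδ ζ
        (fun ξ hξ => happ ξ hξ (δ / 2) (half_pos hδ)) h
    exact ⟨p, a, q, hp, haA, hasa, hanorm, Set.mem_univ _, hq, hF, hmain⟩
  · have h' : ¬ FiniteDimensional ℂ ((stepSub hA ζ).map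
        (((‖-x‖ : ℂ) • (1 : H →L[ℂ] H) - -x : H →L[ℂ] H) : H →ₗ[ℂ] H)) := by
      rw [norm_neg, sub_neg_eq_add]
      exact h
    obtain ⟨p, a, q, hp, haA, hasa, hanorm, hq, hF, hmain⟩ :=
      hA.exists_paving_aux hmin (-x) hx.neg (neg_ne_zero.mpr hx0) r hr F δ hδ ζ
        (fun ξ hξ => happ ξ hξ (δ / 2) (half_pos hδ)) h'
    refine ⟨p, -a, q, hp, hA.neg_mem haA, hasa.neg, ?_, Set.mem_univ _, hq, hF, ?_⟩
    · rw [norm_neg]
      rw [norm_neg] at hanorm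
      exact hanorm
    · have h1 : pinching p x - -a = -(pinching p (-x) - a) := by
        unfold pinching
        simp only [mul_neg, neg_mul, Finset.sum_neg_distrib]
        abel
      rw [h1, mul_neg, neg_mul, norm_neg]
      rw [norm_neg] at hmain
      exact hmain

/-- **Upper bound, closed range.** -/
theorem IsMasa.soPavable_of_one_le [Nontrivial H] (hA : IsMasa A) (hmin : NoMinProj A)
    (x : H →L[ℂ] H) (hx : IsSelfAdjoint x) (ε : ℝ) (r : ℕ) (hr : 1 ≤ (r : ℝ) * ε) :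
    SoPavable Set.univ A x ε r := by
  have hrpos : 0 < r := by
    rcases Nat.eq_zero_or_pos r with h | h
    · subst h
      simp at hr
      linarith
    · exact h
  have hrR : (0 : ℝ) < r := Nat.cast_pos.mpr hrpos
  refine (hA.soPavable_exact hmin x hx r hrpos).mono ?_
  rw [div_le_iff₀ hrR]
  linarith

end Vale.Agent.Lib.P078
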